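import Mathlib

/-!
# P033, module AMGM
-/

namespace P033

/-- The product of the moduli of the conjugates of `x` is `|N x|`. -/
theorem prod_norm_emb {K : Type*} [Field K] [NumberField K] (x : K) :
    ∏ φ : K →+* ℂ, ‖φ x‖ = |((Algebra.norm ℚ x : ℚ) : ℝ)| := by
  have h := Algebra.norm_eq_prod_embeddings ℚ ℂ x
  have h1 : ‖(algebraMap ℚ ℂ) (Algebra.norm ℚ x)‖ = |((Algebra.norm ℚ x : ℚ) : ℝ)| := by
    have : (algebraMap ℚ ℂ) (Algebra.norm ℚ x) = (((Algebra.norm ℚ x : ℚ) : ℝ) : ℂ) := by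
      simp
    rw [this, Complex.norm_real, Real.norm_eq_abs]
  rw [← h1, h, norm_prod]
  exact Fintype.prod_equiv (RingHom.equivRatAlgHom K ℂ) _ _ (fun φ => rfl)

/-- AM-GM for nonzero algebraic integers: the mean of `‖φ x‖ ^ 2` over all embeddings is `≥ 1`
(the product of the `‖φ x‖` is `|N x| ≥ 1`). -/
theorem amgm {K : Type*} [Field K] [NumberField K] {x : K} (hx : IsIntegral ℤ x) (h0 : x ≠ 0) :
    (Module.finrank ℚ K : ℝ) ≤ ∑ φ : K →+* ℂ, ‖φ x‖ ^ 2 := by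
  have hpos : ∀ φ : K →+* ℂ, 0 < ‖φ x‖ := fun φ => norm_pos_iff.mpr ((map_ne_zero φ).mpr h0)
  have hN : (1 : ℝ) ≤ |((Algebra.norm ℚ x : ℚ) : ℝ)| := by
    have hint : IsIntegral ℤ (Algebra.norm ℚ x) := Algebra.isIntegral_norm ℚ hx
    obtain ⟨m, hm⟩ := IsIntegrallyClosed.isIntegral_iff.mp hint
    have hne : Algebra.norm ℚ x ≠ 0 := Algebra.norm_ne_zero_iff.mpr h0
    have hm0 : m ≠ 0 := by
      rintro rfl
      apply hne
      rw [← hm, map_zero]
    have h1 : (1 : ℤ) ≤ |m| := Int.one_le_abs hm0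
    rw [← hm]
    have h2 : (((algebraMap ℤ ℚ) m : ℚ) : ℝ) = (m : ℝ) := by simp
    rw [h2]
    exact_mod_cast h1
  have hlog : 0 ≤ ∑ φ : K →+* ℂ, Real.log (‖φ x‖ ^ 2) := by
    have h1 : ∑ φ : K →+* ℂ, Real.log (‖φ x‖ ^ 2) = 2 * Real.log (∏ φ : K →+* ℂ, ‖φ x‖) := by
      rw [Real.log_prod (fun φ _ => (hpos φ).ne'), Finset.mul_sum]
      refine Finset.sum_congr rfl fun φ _ => ?_
      rw [Real.log_pow]
      norm_num
    rw [h1, prod_norm_emb]
    have := Real.log_nonneg hN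
    linarith
  have hterm : ∀ φ : K →+* ℂ, 1 + Real.log (‖φ x‖ ^ 2) ≤ ‖φ x‖ ^ 2 := by
    intro φ
    have := Real.log_le_sub_one_of_pos (pow_pos (hpos φ) 2)
    linarith
  have hsum := Finset.sum_le_sum (s := Finset.univ) fun φ _ => hterm φ
  rw [Finset.sum_add_distrib] at hsum
  have hcard : ∑ _φ : K →+* ℂ, (1 : ℝ) = (Module.finrank ℚ K : ℝ) := by
    rw [Finset.sum_const, Finset.card_univ, NumberField.Embeddings.card K ℂ, nsmul_eq_mul,
      mul_one]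
  rw [hcard] at hsum
  linarith

end P033
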