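import Mathlib

/-!
# P033, module AFFINE: small subsets of `ZMod P` invariant under an affine map
-/

namespace P033

open Finset

/-- If `t S = c + S` for a nonempty `S ⊆ ZMod P` with fewer elements than the multiplicative order
of `t`, then `S` is a single point.  (The map `l ↦ t l - c` permutes `S`; it has one fixed point
`c / (t - 1)` and all its other orbits have length `orderOf t`.) -/
theorem affine_card {P : ℕ} [Fact P.Prime] (S : Finset (ZMod P)) (hS : S.Nonempty)
    (t c : ZMod P) (h : S.image (fun l => t * l) = S.image (fun l => c + l))
    (hcard : S.card < orderOf t) : S.card = 1 := by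
  have hpos : 0 < S.card := hS.card_pos
  have ht1 : t ≠ 1 := by
    intro ht
    rw [ht, orderOf_one] at hcard
    omega
  have ht1' : t - 1 ≠ 0 := sub_ne_zero.mpr ht1
  have ht0 : t ≠ 0 := by
    intro ht
    have h1 : orderOf t = 0 := by
      rw [orderOf_eq_zero_iff']
      intro n hn
      rw [ht, zero_pow (by omega)]
      exact zero_ne_one
    omega
  have hf : ∀ l ∈ S, t * l - c ∈ S := by
    intro l hl
    have h1 : t * l ∈ S.image (fun l => c + l) := by
      rw [← h]
      exact mem_image_of_mem _ hl
    rw [mem_image] at h1
    obtain ⟨l', hl', h2⟩ := h1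
    rw [← h2, add_sub_cancel_left]
    exact hl'
  set x : ZMod P := c / (t - 1) with hx
  have hxc : c = (t - 1) * x := by
    rw [hx]
    field_simp
  have hit : ∀ l ∈ S, ∀ k : ℕ, x + t ^ k * (l - x) ∈ S := by
    intro l hl k
    induction k with
    | zero => simpa using hl
    | succ k ih =>
      have h1 := hf _ ih
      have h2 : t * (x + t ^ k * (l - x)) - c = x + t ^ (k + 1) * (l - x) := by
        rw [hxc, pow_succ]
        ring
      rwa [h2] at h1
  have hall : ∀ l ∈ S, l = x := by
    intro l hl
    by_contra hne
    have hne' : l - x ≠ 0 := sub_ne_zero.mpr hne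
    have hsub : (range (orderOf t)).image (fun k => x + t ^ k * (l - x)) ⊆ S := by
      intro y hy
      rw [mem_image] at hy
      obtain ⟨k, _, rfl⟩ := hy
      exact hit l hl k
    have hc := card_le_card hsub
    rw [card_image_of_injOn, card_range] at hc
    · omega
    · intro i hi j hj hij
      have h1 : t ^ i * (l - x) = t ^ j * (l - x) := add_left_cancel hij
      have h2 : t ^ i = t ^ j := mul_right_cancel₀ hne' h1
      exact pow_injOn_Iio_orderOf (by simpa using hi) (by simpa using hj) h2
  have hS1 : S ⊆ {x} := by
    intro l hl
    rw [mem_singleton]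
    exact hall l hl
  have := card_le_card hS1
  rw [card_singleton] at this
  omega

end P033
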