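import Vale.Agent.P033.Union

/-!
# P033, module ASYM: choice of parameters
-/

namespace P033

open Finset

theorem asym_y {δ L : ℝ} {y : ℕ} (hy : y = ⌊Real.exp (δ * L)⌋₊) (f3' : 4 ≤ Real.exp (δ * L)) :
    (y : ℝ) ≤ Real.exp (δ * L) ∧ Real.exp (δ * L) / 2 ≤ y ∧ 2 ≤ y := by
  have hy1 : (y : ℝ) ≤ Real.exp (δ * L) := by rw [hy]; exact Nat.floor_le (Real.exp_pos _).le
  have hy2 : Real.exp (δ * L) / 2 ≤ y := by
    have := Nat.lt_floor_add_one (Real.exp (δ * L))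
    rw [← hy] at this
    linarith
  refine ⟨hy1, hy2, ?_⟩
  have : (2 : ℝ) ≤ y := by linarith
  exact_mod_cast this

theorem asym_T {δ L : ℝ} {T : ℕ} (hT : T = ⌊Real.exp (δ * L / 8)⌋₊)
    (c1' : Real.log 2 ≤ δ * L / 16) :
    (T : ℝ) ≤ Real.exp (δ * L / 8) ∧ 0 < T ∧ δ * L / 16 ≤ Real.log T := by
  have hT1 : (T : ℝ) ≤ Real.exp (δ * L / 8) := by rw [hT]; exact Nat.floor_le (Real.exp_pos _).le
  have hT8 : 2 * 2 ≤ Real.exp (δ * L / 8) := by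
    have h1 : 2 * Real.log 2 ≤ δ * L / 8 := by linarith
    have h2 := Real.exp_le_exp.2 h1
    have h3 : Real.exp (2 * Real.log 2) = 2 * 2 := by
      rw [two_mul, Real.exp_add, Real.exp_log (by norm_num)]
    linarith
  have hT2 : Real.exp (δ * L / 8) / 2 ≤ T := by
    have := Nat.lt_floor_add_one (Real.exp (δ * L / 8))
    rw [← hT] at this
    linarith
  have hT0R : (0 : ℝ) < T := by linarith
  have hT0 : 0 < T := by exact_mod_cast hT0R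
  refine ⟨hT1, hT0, ?_⟩
  have h1 : Real.log (Real.exp (δ * L / 8) / 2) ≤ Real.log T :=
    Real.log_le_log (by positivity) hT2
  rw [Real.log_div (Real.exp_pos _).ne' (by norm_num), Real.log_exp] at h1
  linarith

theorem asym_b {L : ℝ} {b b₀ : ℕ} (hb : b = ⌊L ^ 40⌋₊) (f4' : 2 ≤ L)
    (f6 : (b₀ : ℝ) + 1 ≤ L ^ 36) :
    (b : ℝ) ≤ L ^ 40 ∧ L ^ 36 ≤ b ∧ b₀ ≤ b ∧ 2 ≤ b ∧ Real.log b ≤ 40 * Real.log L := by
  have hb1 : (b : ℝ) ≤ L ^ 40 := by rw [hb]; exact Nat.floor_le (by positivity)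
  have h36 : (1 : ℝ) ≤ L ^ 36 := one_le_pow₀ (by linarith)
  have hb2 : L ^ 36 ≤ b := by
    have h1 := Nat.lt_floor_add_one (L ^ 40)
    rw [← hb] at h1
    have h2 : L ^ 40 = L ^ 36 * L ^ 4 := by rw [← pow_add]
    have h3 : (2 : ℝ) ^ 4 ≤ L ^ 4 := pow_le_pow_left₀ (by norm_num) f4' 4
    have h4 : L ^ 36 * 2 ≤ L ^ 36 * L ^ 4 := mul_le_mul_of_nonneg_left (by linarith) (by positivity)
    linarith
  have hb3 : b₀ ≤ b := by
    have : (b₀ : ℝ) ≤ b := by linarith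
    exact_mod_cast this
  have hb4 : 2 ≤ b := by
    have h3 : (2 : ℝ) ^ 36 ≤ L ^ 36 := pow_le_pow_left₀ (by norm_num) f4' 36
    have : (2 : ℝ) ≤ b := by
      refine le_trans ?_ hb2
      refine le_trans ?_ h3
      norm_num
    exact_mod_cast this
  have hbR : (0 : ℝ) < b := by exact_mod_cast (by omega : 0 < b)
  refine ⟨hb1, hb2, hb3, hb4, ?_⟩
  have := Real.log_le_log hbR hb1
  rw [Real.log_pow] at this
  exact_mod_cast this

theorem asym_w {δ L r : ℝ} {w : ℕ} (hδ0 : 0 < δ) (hw : w = ⌊Real.log L / 2⌋₊)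
    (hr0 : 0 < r) (hr : r ^ 4 = L) (f4' : 2 ≤ L) (c1 : 64 / δ ≤ r) :
    Real.log L / 2 ≤ (w : ℝ) + 1 ∧ 2 ^ (w + 2) * r ≤ δ * L / 16 := by
  have hlogL : 0 < Real.log L := Real.log_pos (by linarith)
  have hw1 : (w : ℝ) ≤ Real.log L / 2 := by rw [hw]; exact Nat.floor_le (by positivity)
  have hw2 : Real.log L / 2 ≤ (w : ℝ) + 1 := by
    rw [hw]; exact (Nat.lt_floor_add_one _).le
  refine ⟨hw2, ?_⟩
  have hlogr : Real.log L = 4 * Real.log r := by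
    rw [← hr, Real.log_pow]; push_cast; rfl
  have h2w : (2 : ℝ) ^ w ≤ r ^ 2 := by
    have h1 : (2 : ℝ) ^ w ≤ Real.exp 1 ^ w :=
      pow_le_pow_left₀ (by norm_num) (by linarith [Real.exp_one_gt_d9]) w
    have h2 : Real.exp 1 ^ w = Real.exp w := by
      rw [← Real.exp_nat_mul, mul_one]
    have h3 : Real.exp (w : ℝ) ≤ Real.exp (2 * Real.log r) :=
      Real.exp_le_exp.2 (by linarith)
    have h4 : Real.exp (2 * Real.log r) = r ^ 2 := by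
      rw [two_mul, Real.exp_add, Real.exp_log hr0, sq]
    linarith
  have h1 : (2 : ℝ) ^ (w + 2) * r ≤ 4 * r ^ 3 := by
    have : (2 : ℝ) ^ (w + 2) = 4 * 2 ^ w := by rw [pow_add]; ring
    rw [this]
    have h2 : 4 * (2 : ℝ) ^ w * r ≤ 4 * r ^ 2 * r :=
      mul_le_mul_of_nonneg_right (by linarith) hr0.le
    nlinarith
  have h3 : 64 ≤ δ * r := by
    rw [div_le_iff₀ hδ0] at c1; linarith
  have h4 : 4 * r ^ 3 ≤ δ * L / 16 := by
    rw [← hr]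
    have : 64 * r ^ 3 ≤ (δ * r) * r ^ 3 := mul_le_mul_of_nonneg_right h3 (by positivity)
    nlinarith
  linarith

theorem asym_log {δ L : ℝ} {x y : ℕ} (hx : 2 ≤ x) (hL : L = Real.log x)
    (hy2 : Real.exp (δ * L) / 2 ≤ y)
    (c2 : (2 * L + Real.log 4) / Real.log 2 + 1 ≤ Real.exp (δ * L) / 2) :
    Nat.log 2 (4 * x ^ 2) + 1 ≤ y := by
  have hxR : (0 : ℝ) < x := by exact_mod_cast (by omega : 0 < x)
  have hl2 : 0 < Real.log 2 := Real.log_pos (by norm_num)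
  obtain ⟨k, hk⟩ : ∃ k, k = Nat.log 2 (4 * x ^ 2) := ⟨_, rfl⟩
  have h2 : 2 ^ k ≤ 4 * x ^ 2 := by rw [hk]; exact Nat.pow_log_le_self 2 (by positivity)
  rw [← hk]
  have h1 : (k : ℝ) * Real.log 2 ≤ Real.log 4 + 2 * L := by
    have h3 : (2 : ℝ) ^ k ≤ 4 * (x : ℝ) ^ 2 := by exact_mod_cast h2
    have h4 := Real.log_le_log (by positivity) h3
    rw [Real.log_pow, Real.log_mul (by norm_num) (by positivity), Real.log_pow, ← hL] at h4
    exact_mod_cast h4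
  have h5 : (k : ℝ) ≤ (2 * L + Real.log 4) / Real.log 2 := by
    rw [le_div_iff₀ hl2]; linarith
  have h6 : (((k + 1 : ℕ)) : ℝ) ≤ y := by push_cast; linarith
  exact_mod_cast h6

theorem asym_t1 {ε : ℝ} {x : ℕ} (hε : 0 < ε) (f1 : 7 / ε ≤ Real.sqrt x) :
    Real.sqrt x ≤ ε / 7 * x := by
  have h1 : (x : ℝ) = Real.sqrt x * Real.sqrt x := (Real.mul_self_sqrt (Nat.cast_nonneg x)).symm
  have h2 : 1 ≤ ε / 7 * Real.sqrt x := by
    rw [div_le_iff₀ hε] at f1; linarith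
  have h3 : 0 ≤ Real.sqrt x := Real.sqrt_nonneg _
  calc Real.sqrt x = 1 * Real.sqrt x := (one_mul _).symm
    _ ≤ (ε / 7 * Real.sqrt x) * Real.sqrt x := mul_le_mul_of_nonneg_right h2 h3
    _ = ε / 7 * (Real.sqrt x * Real.sqrt x) := by ring
    _ = ε / 7 * x := by rw [← h1]

theorem asym_t2 {ε δ L : ℝ} {y : ℕ} (hδ : δ = ε / 40) (hL0 : 0 < L) (hy0 : (0 : ℝ) < y)
    (hy1 : (y : ℝ) ≤ Real.exp (δ * L)) (f2 : 4 * Real.log 4 ≤ 3 * ε / 70 * L) :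
    4 * (Real.log y + Real.log 4) / L ≤ ε / 7 := by
  have h1 : Real.log y ≤ δ * L := by
    have := Real.log_le_log hy0 hy1
    rwa [Real.log_exp] at this
  rw [div_le_iff₀ hL0]
  have h2 : 4 * (δ * L) = ε / 10 * L := by rw [hδ]; ring
  have h3 : ε / 10 * L + 3 * ε / 70 * L = ε / 7 * L := by ring
  linarith

theorem asym_t3 {ε δ L : ℝ} {x y : ℕ} (hε : 0 < ε) (hy0 : (0 : ℝ) < y)
    (hy2 : Real.exp (δ * L) / 2 ≤ y) (f3 : 14 / ε ≤ Real.exp (δ * L)) :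
    (x : ℝ) / y ≤ ε / 7 * x := by
  rw [div_le_iff₀ hy0]
  have h1 : 1 ≤ ε / 7 * y := by
    rw [div_le_iff₀ hε] at f3
    nlinarith
  have hx0 : (0 : ℝ) ≤ x := Nat.cast_nonneg x
  nlinarith

theorem asym_t4 {ε L : ℝ} {b : ℕ} (hε : 0 < ε) (f4' : 2 ≤ L) (hb2 : L ^ 36 ≤ b)
    (f4 : 896 / ε ≤ L) :
    (1 + L) * (1 + 3 * L) ^ 3 / (b : ℝ) ^ (1 / 4 : ℝ) ≤ ε / 7 := by
  have hL0 : 0 < L := by linarith
  have hbR : (0 : ℝ) < b := lt_of_lt_of_le (by positivity) hb2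
  have h1 : L ^ 9 ≤ (b : ℝ) ^ (1 / 4 : ℝ) := by
    have h2 : (L ^ 36) ^ (1 / 4 : ℝ) ≤ (b : ℝ) ^ (1 / 4 : ℝ) :=
      Real.rpow_le_rpow (by positivity) hb2 (by norm_num)
    have h3 : (L ^ 36) ^ (1 / 4 : ℝ) = L ^ 9 := by
      have e1 : L ^ 36 = (L ^ 9) ^ 4 := by rw [← pow_mul]
      have e2 : (1 / 4 : ℝ) = ((4 : ℕ) : ℝ)⁻¹ := by norm_num
      rw [e1, e2, Real.pow_rpow_inv_natCast (by positivity) (by norm_num)]
    rw [h3] at h2
    exact h2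
  have h4 : (1 + L) * (1 + 3 * L) ^ 3 ≤ 128 * L ^ 4 := by
    have h5 : 1 + L ≤ 2 * L := by linarith
    have h6 : (1 + 3 * L) ^ 3 ≤ (4 * L) ^ 3 := pow_le_pow_left₀ (by positivity) (by linarith) 3
    calc (1 + L) * (1 + 3 * L) ^ 3 ≤ (2 * L) * (4 * L) ^ 3 :=
          mul_le_mul h5 h6 (by positivity) (by positivity)
      _ = 128 * L ^ 4 := by ring
  have h7 : 128 ≤ ε / 7 * L := by
    rw [div_le_iff₀ hε] at f4; linarith
  have h8 : L ≤ L ^ 5 := le_self_pow₀ (by linarith) (by norm_num)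
  rw [div_le_iff₀ (by positivity)]
  calc (1 + L) * (1 + 3 * L) ^ 3 ≤ 128 * L ^ 4 := h4
    _ ≤ (ε / 7 * L) * L ^ 4 := mul_le_mul_of_nonneg_right h7 (by positivity)
    _ ≤ (ε / 7 * L ^ 5) * L ^ 4 := mul_le_mul_of_nonneg_right
        (mul_le_mul_of_nonneg_left h8 (by positivity)) (by positivity)
    _ = ε / 7 * L ^ 9 := by ring
    _ ≤ ε / 7 * (b : ℝ) ^ (1 / 4 : ℝ) := mul_le_mul_of_nonneg_left h1 (by positivity)

theorem asym_t5 {ε δ L : ℝ} {y b T : ℕ} (hε : 0 < ε) (hL0 : 0 < L) (hy0 : (0 : ℝ) < y)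
    (hy2 : Real.exp (δ * L) / 2 ≤ y) (hb1 : (b : ℝ) ≤ L ^ 40)
    (hT1 : (T : ℝ) ≤ Real.exp (δ * L / 8))
    (f5 : L ^ 80 ≤ ε / 14 * Real.exp (3 * δ / 4 * L)) :
    (b : ℝ) ^ 2 * (T : ℝ) ^ 2 / y ≤ ε / 7 := by
  rw [div_le_iff₀ hy0]
  have h1 : (b : ℝ) ^ 2 ≤ L ^ 80 := by
    calc (b : ℝ) ^ 2 ≤ (L ^ 40) ^ 2 := pow_le_pow_left₀ (Nat.cast_nonneg b) hb1 2
      _ = L ^ 80 := by rw [← pow_mul]
  have h2 : (T : ℝ) ^ 2 ≤ Real.exp (δ * L / 4) := by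
    calc (T : ℝ) ^ 2 ≤ Real.exp (δ * L / 8) ^ 2 := pow_le_pow_left₀ (Nat.cast_nonneg T) hT1 2
      _ = Real.exp (δ * L / 4) := by
        rw [← Real.exp_nat_mul]; congr 1; push_cast; ring
  have h3 : Real.exp (3 * δ / 4 * L) * Real.exp (δ * L / 4) = Real.exp (δ * L) := by
    rw [← Real.exp_add]; congr 1; ring
  calc (b : ℝ) ^ 2 * (T : ℝ) ^ 2 ≤ L ^ 80 * Real.exp (δ * L / 4) :=
        mul_le_mul h1 h2 (by positivity) (by positivity)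
    _ ≤ (ε / 14 * Real.exp (3 * δ / 4 * L)) * Real.exp (δ * L / 4) :=
        mul_le_mul_of_nonneg_right f5 (Real.exp_pos _).le
    _ = ε / 7 * (Real.exp (δ * L) / 2) := by rw [mul_assoc, h3]; ring
    _ ≤ ε / 7 * y := mul_le_mul_of_nonneg_left hy2 (by positivity)

theorem asym_t6 {ε L S lb w : ℝ} (hε : 0 < ε) (hw0 : 0 ≤ w) (hS : S ≤ ε / 560 * lb)
    (hlogb : lb ≤ 40 * Real.log L) (hw2 : Real.log L / 2 ≤ w + 1) :
    S / (w + 1) ≤ ε / 7 := by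
  rw [div_le_iff₀ (by positivity)]
  calc S ≤ ε / 560 * lb := hS
    _ ≤ ε / 560 * (40 * Real.log L) := mul_le_mul_of_nonneg_left hlogb (by positivity)
    _ = ε / 7 * (Real.log L / 2) := by ring
    _ ≤ ε / 7 * (w + 1) := mul_le_mul_of_nonneg_left hw2 (by positivity)

theorem asym_core {ε δ L r : ℝ} {x b₀ : ℕ} (hε : 0 < ε) (hδ : δ = ε / 40) (hx : 2 ≤ x)
    (hL : L = Real.log x) (hr0 : 0 < r) (hr : r ^ 4 = L)
    (hmer : ∀ b ≥ b₀, ∑ q ∈ (range (b + 1)).filter Nat.Prime, (1 : ℝ) / q ≤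
      ε / 560 * Real.log b)
    (f1 : 7 / ε ≤ Real.sqrt x) (f2 : 4 * Real.log 4 ≤ 3 * ε / 70 * L)
    (f3 : 14 / ε ≤ Real.exp (δ * L)) (f3' : 4 ≤ Real.exp (δ * L))
    (f4 : 896 / ε ≤ L) (f4' : 2 ≤ L)
    (f5 : L ^ 80 ≤ ε / 14 * Real.exp (3 * δ / 4 * L)) (f6 : (b₀ : ℝ) + 1 ≤ L ^ 36)
    (f7 : 80 * Real.log L + 2 * Real.log 4 ≤ ε / 7 * r)
    (c1 : 64 / δ ≤ r) (c1' : Real.log 2 ≤ δ * L / 16)
    (c2 : (2 * L + Real.log 4) / Real.log 2 + 1 ≤ Real.exp (δ * L) / 2) :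
    (Nat.card {u : ℕ // u ∈ Icc 1 x ∧ HasPerf (4 * u ^ 2)} : ℝ) ≤ ε * x := by
  have hδ0 : 0 < δ := by rw [hδ]; positivity
  have hL0 : 0 < L := by linarith
  have hxR : (0 : ℝ) < x := by exact_mod_cast (by omega : 0 < x)
  obtain ⟨y, hy⟩ : ∃ y : ℕ, y = ⌊Real.exp (δ * L)⌋₊ := ⟨_, rfl⟩
  obtain ⟨hy1, hy2, hy3⟩ := asym_y hy f3'
  have hy0 : (0 : ℝ) < y := by exact_mod_cast (by omega : 0 < y)
  obtain ⟨T, hT⟩ : ∃ T : ℕ, T = ⌊Real.exp (δ * L / 8)⌋₊ := ⟨_, rfl⟩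
  obtain ⟨hT1, hT0, hT3⟩ := asym_T hT c1'
  obtain ⟨b, hb⟩ : ∃ b : ℕ, b = ⌊L ^ 40⌋₊ := ⟨_, rfl⟩
  obtain ⟨hb1, hb2, hb3, hb4, hlogb⟩ := asym_b hb f4' f6
  obtain ⟨w, hw⟩ : ∃ w : ℕ, w = ⌊Real.log L / 2⌋₊ := ⟨_, rfl⟩
  obtain ⟨hw2, hw3⟩ := asym_w hδ0 hw hr0 hr f4' c1
  have hlog := asym_log hx hL hy2 c2
  have main := count_hasPerf (x := x) (y := y) (b := b) (T := T) (w := w) (s := r) hx hy3 hb4
    hT0 hr0 (hw3.trans hT3) hlog
  rw [← hL] at main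
  have t1 := asym_t1 hε f1
  have t2 := asym_t2 hδ hL0 hy0 hy1 f2
  have t3 := asym_t3 (x := x) hε hy0 hy2 f3
  have t4 := asym_t4 hε f4' hb2 f4
  have t5 := asym_t5 hε hL0 hy0 hy2 hb1 hT1 f5
  have t6 := asym_t6 hε (Nat.cast_nonneg w) (hmer b hb3) hlogb hw2
  have t7 : (2 * Real.log b + 2 * Real.log 4) / r ≤ ε / 7 := by
    rw [div_le_iff₀ hr0]; linarith
  have t2' := mul_le_mul_of_nonneg_left t2 hxR.le
  have t4' := mul_le_mul_of_nonneg_left t4 hxR.le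
  have t5' := mul_le_mul_of_nonneg_left t5 hxR.le
  have t6' := mul_le_mul_of_nonneg_left t6 hxR.le
  have t7' := mul_le_mul_of_nonneg_left t7 hxR.le
  have e : (x : ℝ) * (ε / 7) = ε / 7 * x := mul_comm _ _
  rw [e] at t2' t4' t5' t6' t7'
  refine main.trans ?_
  have hsum : ε * x = ε / 7 * x + ε / 7 * x + ε / 7 * x + ε / 7 * x + ε / 7 * x + ε / 7 * x +
      ε / 7 * x := by ring
  rw [hsum]
  exact add_le_add (add_le_add (add_le_add (add_le_add (add_le_add (add_le_add t1 t2') t3) t4')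
    t5') t6') t7'

/-- `y = ⌊x^δ⌋`, `T = ⌊x^(δ/8)⌋`, `b = ⌊(log x)^40⌋`, `w = ⌊(log log x)/2⌋`, `s = (log x)^(1/4)`,
`δ = ε / 40`. -/
theorem density (ε : ℝ) (hε : 0 < ε) : ∃ x₀ : ℕ, ∀ x ≥ x₀,
    (Nat.card {u : ℕ // u ∈ Icc 1 x ∧ HasPerf (4 * u ^ 2)} : ℝ) ≤ ε * x := by
  obtain ⟨b₀, hmer⟩ := sum_inv_small (show 0 < ε / 560 by positivity)
  obtain ⟨δ, hδ⟩ : ∃ δ, δ = ε / 40 := ⟨_, rfl⟩
  have hδ0 : 0 < δ := by rw [hδ]; positivity
  have hLt : Filter.Tendsto (fun x : ℕ => Real.log (x : ℝ)) Filter.atTop Filter.atTop :=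
    Real.tendsto_log_atTop.comp tendsto_natCast_atTop_atTop
  have hexp : Filter.Tendsto (fun L : ℝ => Real.exp (δ * L)) Filter.atTop Filter.atTop :=
    Real.tendsto_exp_atTop.comp (Filter.tendsto_id.const_mul_atTop hδ0)
  have hrt : Filter.Tendsto (fun L : ℝ => L ^ (1 / 4 : ℝ)) Filter.atTop Filter.atTop :=
    tendsto_rpow_atTop (by norm_num)
  -- conditions on `L`
  have hev : ∀ᶠ L : ℝ in Filter.atTop, (4 * Real.log 4 ≤ 3 * ε / 70 * L) ∧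
      (14 / ε ≤ Real.exp (δ * L)) ∧ (4 ≤ Real.exp (δ * L)) ∧ (896 / ε ≤ L) ∧ (2 ≤ L) ∧
      (L ^ 80 ≤ ε / 14 * Real.exp (3 * δ / 4 * L)) ∧ ((b₀ : ℝ) + 1 ≤ L ^ 36) ∧
      (80 * Real.log L + 2 * Real.log 4 ≤ ε / 7 * L ^ (1 / 4 : ℝ)) ∧
      (64 / δ ≤ L ^ (1 / 4 : ℝ)) ∧ (Real.log 2 ≤ δ * L / 16) ∧
      ((2 * L + Real.log 4) / Real.log 2 + 1 ≤ Real.exp (δ * L) / 2) := by
    have e1 : ∀ᶠ L : ℝ in Filter.atTop, 4 * Real.log 4 ≤ 3 * ε / 70 * L :=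
      (Filter.tendsto_id.const_mul_atTop (show 0 < 3 * ε / 70 by positivity)).eventually_ge_atTop _
    have e5 : ∀ᶠ L : ℝ in Filter.atTop, L ^ 80 ≤ ε / 14 * Real.exp (3 * δ / 4 * L) := by
      have h1 := (isLittleO_pow_exp_pos_mul_atTop (k := 80)
        (show 0 < 3 * δ / 4 by positivity)).def (show 0 < ε / 14 by positivity)
      filter_upwards [h1, Filter.eventually_ge_atTop 0] with L h2 h3
      rwa [Real.norm_of_nonneg (by positivity), Real.norm_of_nonneg (Real.exp_pos _).le] at h2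
    have e6 : ∀ᶠ L : ℝ in Filter.atTop, (b₀ : ℝ) + 1 ≤ L ^ 36 :=
      (Filter.tendsto_pow_atTop (by norm_num)).eventually_ge_atTop _
    have e7 : ∀ᶠ L : ℝ in Filter.atTop,
        80 * Real.log L + 2 * Real.log 4 ≤ ε / 7 * L ^ (1 / 4 : ℝ) := by
      have h1 := (isLittleO_log_rpow_atTop (show (0 : ℝ) < 1 / 4 by norm_num)).def
        (show 0 < ε / 14 / 80 by positivity)
      have h2 : ∀ᶠ L : ℝ in Filter.atTop, 2 * Real.log 4 ≤ ε / 14 * L ^ (1 / 4 : ℝ) :=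
        (hrt.const_mul_atTop (show 0 < ε / 14 by positivity)).eventually_ge_atTop _
      filter_upwards [h1, h2, Filter.eventually_ge_atTop 1] with L h3 h4 h5
      rw [Real.norm_of_nonneg (Real.log_nonneg h5), Real.norm_of_nonneg (by positivity)] at h3
      linarith
    have e10 : ∀ᶠ L : ℝ in Filter.atTop, Real.log 2 ≤ δ * L / 16 := by
      have : ∀ᶠ L : ℝ in Filter.atTop, Real.log 2 ≤ (δ / 16) * L :=
        (Filter.tendsto_id.const_mul_atTop (show 0 < δ / 16 by positivity)).eventually_ge_atTop _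
      filter_upwards [this] with L hL
      linarith
    have e11 : ∀ᶠ L : ℝ in Filter.atTop,
        (2 * L + Real.log 4) / Real.log 2 + 1 ≤ Real.exp (δ * L) / 2 := by
      have h1 := (isLittleO_pow_exp_pos_mul_atTop (k := 1) hδ0).def
        (show 0 < Real.log 2 / 8 by positivity)
      have h2 : ∀ᶠ L : ℝ in Filter.atTop,
          (Real.log 4 / Real.log 2 + 1) * 4 ≤ Real.exp (δ * L) := hexp.eventually_ge_atTop _
      filter_upwards [h1, h2, Filter.eventually_ge_atTop 0] with L h3 h4 h5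
      rw [pow_one, Real.norm_of_nonneg h5, Real.norm_of_nonneg (Real.exp_pos _).le] at h3
      have hl2 : 0 < Real.log 2 := Real.log_pos (by norm_num)
      have h6 : 2 * L / Real.log 2 ≤ Real.exp (δ * L) / 4 := by
        rw [div_le_iff₀ hl2]; nlinarith
      rw [add_div]
      linarith
    filter_upwards [e1, hexp.eventually_ge_atTop (14 / ε), hexp.eventually_ge_atTop 4,
      Filter.eventually_ge_atTop (896 / ε), Filter.eventually_ge_atTop 2, e5, e6, e7,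
      hrt.eventually_ge_atTop (64 / δ), e10, e11] with L a1 a2 a3 a4 a5 a6 a7 a8 a9 a10 a11
    exact ⟨a1, a2, a3, a4, a5, a6, a7, a8, a9, a10, a11⟩
  have hsq : ∀ᶠ x : ℕ in Filter.atTop, 7 / ε ≤ Real.sqrt (x : ℝ) :=
    (Real.tendsto_sqrt_atTop.comp tendsto_natCast_atTop_atTop).eventually_ge_atTop _
  have hall := (hLt.eventually hev).and (hsq.and (Filter.eventually_ge_atTop 2))
  obtain ⟨x₀, hx₀⟩ := Filter.eventually_atTop.1 hall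
  refine ⟨x₀, fun x hx => ?_⟩
  obtain ⟨⟨a1, a2, a3, a4, a5, a6, a7, a8, a9, a10, a11⟩, a12, a13⟩ := hx₀ x hx
  have hL0 : 0 < Real.log (x : ℝ) := by linarith
  refine asym_core (δ := δ) (L := Real.log x) (r := Real.log x ^ (1 / 4 : ℝ)) (b₀ := b₀)
    hε hδ a13 rfl (by positivity) ?_ hmer a12 a1 a2 a3 a4 a5 a6 a7 a8 a9 a10 a11
  rw [← Real.rpow_natCast, ← Real.rpow_mul hL0.le]
  norm_num

end P033
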