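import Mathlib

/-!
# P033, module GOOD: non-Wieferich primes are good
-/

namespace P033

theorem good_one_add_pow {R : Type*} [CommRing R] {e : R} (he : e ^ 2 = 0) (c : R) (N : ℕ) :
    (1 + c * e) ^ N = 1 + N * c * e := by
  induction N with
  | zero => simp
  | succ N ih =>
    rw [pow_succ, ih]
    push_cast
    linear_combination (N * c ^ 2) * he

theorem good_not_dvd_totient {P M : ℕ} (hP : P.Prime)
    (h : ∀ r, r.Prime → r ∣ M → r < P) : ¬ P ∣ Nat.totient M := by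
  intro hd
  rw [Nat.totient_eq_div_primeFactors_mul] at hd
  rcases hP.dvd_mul.mp hd with h1 | h1
  · have h2 : P ∣ M := h1.trans (Nat.div_dvd_of_dvd (Nat.prod_primeFactors_dvd M))
    exact lt_irrefl _ (h P hP h2)
  · obtain ⟨r, hr, h2⟩ := (hP.prime.dvd_finsetProd_iff _).mp h1
    have hrp := Nat.prime_of_mem_primeFactors hr
    have h3 := h r hrp (Nat.dvd_of_mem_primeFactors hr)
    have h4 := Nat.le_of_dvd (by have := hrp.two_le; omega) h2
    omega

/-- Let `P` be the largest prime factor of `u`, `P² ∤ u`, and `q ≠ P` a prime factor of `u` with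
`q ^ (P - 1) ≢ 1 mod P²`.  Then `1 + 4u² / P` is a power of `q` modulo the prime-to-`q` part of
`4 u²`.  (`4u² = P² m`, `M = ordCompl[q] m`, `P ∤ φ(M)` since all prime factors of `M` are `< P`;
`a = q ^ (φ(M) (P-1))` is `1` mod `M` and `1 + c P`, `P ∤ c`, mod `P²`; take a power of `a`.) -/
theorem good_of_not_wief {u P q : ℕ} (hu : 0 < u) (hP : P.Prime) (hP2 : P ≠ 2) (hPu : P ∣ u)
    (hPu2 : ¬ P ^ 2 ∣ u) (hmax : ∀ p, p.Prime → p ∣ u → p ≤ P) (hq : q.Prime) (hqP : q ≠ P)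
    (hqu : q ∣ u) (hW : ¬ q ^ (P - 1) ≡ 1 [MOD P ^ 2]) :
    ∃ k, 1 + (4 * u ^ 2) / P ≡ q ^ k [MOD ordCompl[q] (4 * u ^ 2)] := by
  obtain ⟨t, rfl⟩ := hPu
  have ht0 : t ≠ 0 := by rintro rfl; simp at hu
  have hPt : ¬ P ∣ t := by
    rintro ⟨s, rfl⟩
    exact hPu2 ⟨s, by ring⟩
  set m : ℕ := 4 * t ^ 2 with hm
  have hm0 : m ≠ 0 := by positivity
  have hn : 4 * (P * t) ^ 2 = P ^ 2 * m := by rw [hm]; ring
  have hnP : 4 * (P * t) ^ 2 / P = P * m := by
    rw [hn, pow_two, mul_assoc, Nat.mul_div_cancel_left _ hP.pos]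
  have hPm : ¬ P ∣ m := by
    intro h
    rcases hP.dvd_mul.mp h with h1 | h1
    · have h2 : P ∣ 2 := hP.dvd_of_dvd_pow (n := 2) (by norm_num; exact h1)
      exact hP2 ((Nat.prime_dvd_prime_iff_eq hP Nat.prime_two).mp h2)
    · exact hPt (hP.dvd_of_dvd_pow h1)
  set M : ℕ := ordCompl[q] m with hM
  have hM0 : M ≠ 0 := (Nat.ordCompl_pos q hm0).ne'
  have hMm : M ∣ m := Nat.ordCompl_dvd m q
  have hord : ordCompl[q] (4 * (P * t) ^ 2) = P ^ 2 * M := by
    rw [hn, Nat.ordCompl_mul]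
    congr 1
    have h1 : ¬ q ∣ P ^ 2 := fun h =>
      hqP ((Nat.prime_dvd_prime_iff_eq hq hP).mp (hq.dvd_of_dvd_pow h))
    rw [Nat.factorization_eq_zero_of_not_dvd h1, pow_zero, Nat.div_one]
  have hqM : Nat.Coprime q M := Nat.coprime_ordCompl hq hm0
  have hPM : Nat.Coprime (P ^ 2) M :=
    Nat.Coprime.pow_left 2 ((Nat.Prime.coprime_iff_not_dvd hP).mpr fun h => hPm (h.trans hMm))
  have hlt : ∀ r, r.Prime → r ∣ M → r < P := by
    intro r hr hrM
    have h1 : r ∣ m := hrM.trans hMm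
    have h2 : r ≠ P := by rintro rfl; exact hPm h1
    rcases hr.dvd_mul.mp h1 with h3 | h3
    · have h4 : r ∣ 2 := hr.dvd_of_dvd_pow (n := 2) (by norm_num; exact h3)
      have h5 : r = 2 := (Nat.prime_dvd_prime_iff_eq hr Nat.prime_two).mp h4
      have := hP.two_le
      omega
    · have h4 : r ∣ t := hr.dvd_of_dvd_pow h3
      have := hmax r hr (h4.mul_left P)
      omega
  have hphi : ¬ P ∣ Nat.totient M := good_not_dvd_totient hP hlt
  -- Fermat
  have hqPc : Nat.Coprime q P := (Nat.coprime_primes hq hP).mpr hqP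
  have hF : q ^ (P - 1) ≡ 1 [MOD P] := by
    have := Nat.ModEq.pow_totient hqPc
    rwa [Nat.totient_prime hP] at this
  have hpos : 1 ≤ q ^ (P - 1) := Nat.one_le_pow _ _ hq.pos
  obtain ⟨c, hc⟩ := (Nat.modEq_iff_dvd' hpos).mp hF.symm
  have hc' : q ^ (P - 1) = 1 + P * c := by omega
  have hPc : ¬ P ∣ c := by
    rintro ⟨d, rfl⟩
    apply hW
    rw [hc']
    have : 1 + P * (P * d) = 1 + P ^ 2 * d := by ring
    rw [this]
    exact (Nat.modEq_iff_dvd' (by omega)).mpr ⟨d, by omega⟩ |>.symm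
  -- solve for the exponent
  have := Fact.mk hP
  have hne : ((Nat.totient M * c : ℕ) : ZMod P) ≠ 0 := by
    rw [Ne, ZMod.natCast_eq_zero_iff]
    intro h
    rcases hP.dvd_mul.mp h with h1 | h1
    · exact hphi h1
    · exact hPc h1
  set k' : ℕ := ((m : ZMod P) * ((Nat.totient M * c : ℕ) : ZMod P)⁻¹).val with hk'
  have hk : Nat.totient M * k' * c ≡ m [MOD P] := by
    rw [← ZMod.natCast_eq_natCast_iff]
    have e1 : ((Nat.totient M * k' * c : ℕ) : ZMod P) =
        ((Nat.totient M * c : ℕ) : ZMod P) * (k' : ZMod P) := by push_cast; ring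
    rw [e1, hk', ZMod.natCast_val, ZMod.cast_id', id, mul_comm, mul_assoc, inv_mul_cancel₀ hne,
      mul_one]
  refine ⟨(P - 1) * (Nat.totient M * k'), ?_⟩
  rw [hord, hnP, ← Nat.modEq_and_modEq_iff_modEq_mul hPM]
  constructor
  · rw [pow_mul, hc']
    have h1 : (1 + P * c) ^ (Nat.totient M * k') ≡ 1 + P * (Nat.totient M * k' * c) [MOD P ^ 2] := by
      rw [← ZMod.natCast_eq_natCast_iff]
      have he : ((P : ℕ) : ZMod (P ^ 2)) ^ 2 = 0 := by
        rw [← Nat.cast_pow, ZMod.natCast_self]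
      have := good_one_add_pow he (c : ZMod (P ^ 2)) (Nat.totient M * k')
      push_cast at this ⊢
      rw [mul_comm (P : ZMod (P ^ 2)) (c : ZMod (P ^ 2)), this]
      ring
    have h2 : P * (Nat.totient M * k' * c) ≡ P * m [MOD P ^ 2] := by
      rw [pow_two]
      exact Nat.ModEq.mul_left' P hk
    exact ((h1.trans (Nat.ModEq.add_left 1 h2))).symm
  · have h1 : q ^ ((P - 1) * (Nat.totient M * k')) ≡ 1 [MOD M] := by
      have e : (P - 1) * (Nat.totient M * k') = Nat.totient M * ((P - 1) * k') := by ring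
      rw [e, pow_mul]
      have := (Nat.ModEq.pow_totient hqM).pow ((P - 1) * k')
      rwa [one_pow] at this
    have h2 : 1 + P * m ≡ 1 [MOD M] := by
      have : P * m ≡ 0 [MOD M] := (Nat.modEq_zero_iff_dvd).mpr (hMm.mul_left P)
      simpa using Nat.ModEq.add_left 1 this
    exact h2.trans h1.symm

/-- The prime `P` itself is good: `ordCompl[P] n ∣ n / P`. -/
theorem good_self {n P : ℕ} (hP : P.Prime) (hPn : P ∣ n) :
    1 + n / P ≡ P ^ 0 [MOD ordCompl[P] n] := by
  rcases Nat.eq_zero_or_pos n with h0 | h0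
  · subst h0
    simp only [Nat.zero_div, pow_zero, add_zero]
    exact Nat.ModEq.refl 1
  · have hdvd : ordCompl[P] n ∣ n / P := by
      obtain ⟨m, rfl⟩ := hPn
      rw [Nat.mul_div_cancel_left _ hP.pos]
      have hm0 : m ≠ 0 := by rintro rfl; simp at h0
      rw [Nat.ordCompl_mul]
      have h1 : ordCompl[P] P = 1 := by
        rw [hP.factorization_self, pow_one, Nat.div_self hP.pos]
      rw [h1, one_mul]
      exact Nat.ordCompl_dvd m P
    have : n / P ≡ 0 [MOD ordCompl[P] n] := (Nat.modEq_zero_iff_dvd).mpr hdvd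
    simpa using Nat.ModEq.add_left 1 this

end P033
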