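import Mathlib

/-!
# P033, module TOTIENT
-/

namespace P033

theorem Totient.prod_le (k : ℕ) : ∀ s : Finset ℕ, s.card = k → (∀ p ∈ s, 2 ≤ p) →
    ∏ p ∈ s, p ≤ (k + 1) * ∏ p ∈ s, (p - 1) := by
  induction k with
  | zero =>
    intro s hs _
    rw [Finset.card_eq_zero] at hs
    subst hs
    simp
  | succ k ih =>
    intro s hs h2
    have hne : s.Nonempty := by
      rw [← Finset.card_pos]
      omega
    set M := s.max' hne with hM
    have hMs : M ∈ s := s.max'_mem hne
    have hsub : s ⊆ Finset.Icc 2 M := by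
      intro p hp
      rw [Finset.mem_Icc]
      exact ⟨h2 p hp, s.le_max' p hp⟩
    have hc := Finset.card_le_card hsub
    rw [Nat.card_Icc, hs] at hc
    have hih := ih (s.erase M) (by rw [Finset.card_erase_of_mem hMs, hs]; rfl)
      (fun p hp => h2 p (Finset.mem_of_mem_erase hp))
    rw [← Finset.mul_prod_erase s (fun p => p) hMs, ← Finset.mul_prod_erase s (fun p => p - 1) hMs]
    have hM2 : k + 2 ≤ M := by omega
    obtain ⟨N, hN⟩ : ∃ N, M = N + 1 := ⟨M - 1, by omega⟩
    have hN2 : k + 1 ≤ N := by omega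
    simp only [hN, Nat.add_sub_cancel] at hih ⊢
    calc (N + 1) * ∏ p ∈ s.erase (N + 1), p
        ≤ (N + 1) * ((k + 1) * ∏ p ∈ s.erase (N + 1), (p - 1)) := Nat.mul_le_mul_left _ hih
      _ = ((N + 1) * (k + 1)) * ∏ p ∈ s.erase (N + 1), (p - 1) := by ring
      _ ≤ ((k + 1 + 1) * N) * ∏ p ∈ s.erase (N + 1), (p - 1) := by
        apply Nat.mul_le_mul_right
        nlinarith
      _ = (k + 1 + 1) * (N * ∏ p ∈ s.erase (N + 1), (p - 1)) := by ring

/-- `n ≤ φ(n) (ω(n) + 1)`: `∏_{p ∣ n} (1 - 1/p) ≥ ∏_{i=2}^{k+1} (1 - 1/i) = 1/(k+1)`. -/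
theorem totient_lower {n : ℕ} (hn : 0 < n) : n ≤ n.totient * (n.primeFactors.card + 1) := by
  have h1 := Nat.totient_mul_prod_primeFactors n
  have h2 := Totient.prod_le n.primeFactors.card n.primeFactors rfl
    (fun p hp => (Nat.prime_of_mem_primeFactors hp).two_le)
  have h3 : 0 < ∏ p ∈ n.primeFactors, (p - 1) := by
    apply Finset.prod_pos
    intro p hp
    have := (Nat.prime_of_mem_primeFactors hp).two_le
    omega
  refine Nat.le_of_mul_le_mul_right ?_ h3
  rw [← h1]
  calc n.totient * ∏ p ∈ n.primeFactors, p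
      ≤ n.totient * ((n.primeFactors.card + 1) * ∏ p ∈ n.primeFactors, (p - 1)) :=
        Nat.mul_le_mul_left _ h2
    _ = _ := by ring

theorem card_primeFactors_le_log {n : ℕ} (hn : 0 < n) : n.primeFactors.card ≤ Nat.log 2 n := by
  apply Nat.le_log_of_pow_le (by norm_num)
  have h1 : 2 ^ n.primeFactors.card ≤ ∏ p ∈ n.primeFactors, p := by
    rw [← Finset.prod_const]
    apply Finset.prod_le_prod'
    intro p hp
    exact (Nat.prime_of_mem_primeFactors hp).two_le
  exact h1.trans (Nat.le_of_dvd hn (Nat.prod_primeFactors_dvd n))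

end P033
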