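import Vale.Agent.P033.ThmA
import Vale.Agent.P033.Good
import Vale.Agent.P033.Totient

/-!
# P033, module CRIT: the arithmetic criterion
-/

namespace P033

open Finset

/-- There is a perfect sign sequence of period `n`. -/
def HasPerf (n : ℕ) : Prop :=
  ∃ _ : NeZero n, ∃ h : ZMod n → ℤ, (∀ x, h x = 1 ∨ h x = -1) ∧
    ∀ t : ZMod n, t ≠ 0 → ∑ x, h x * h (x + t) = 0

/-- The Wieferich-bad primes of `u` with respect to `P`. -/
def badQ (u P : ℕ) : Finset ℕ :=
  u.primeFactors.filter fun q => q ≠ P ∧ q ^ (P - 1) % P ^ 2 = 1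

/-- Criterion: `P` the largest prime factor of `u`, `P² ∤ u`, and the Wieferich-bad part of `u`
small with respect to the orders mod `P`.  Then a perfect sequence of period `4u²` forces
`P ≤ log₂(4u²) + 1`. -/
theorem criterion {u P : ℕ} (hu : 0 < u) (hP : P.Prime) (hP2 : P ≠ 2) (hPu : P ∣ u)
    (hPu2 : ¬ P ^ 2 ∣ u) (hmax : ∀ p, p.Prime → p ∣ u → p ≤ P) (hperf : HasPerf (4 * u ^ 2))
    (hbad : ∀ q ∈ badQ u P, (∏ p ∈ badQ u P, p ^ u.factorization p) ^
      (2 ^ ((badQ u P).card + 2)) < orderOf (q : ZMod P)) :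
    P ≤ Nat.log 2 (4 * u ^ 2) + 1 := by
  obtain ⟨hne, h, hpm, hh⟩ := hperf
  have hn0 : 0 < 4 * u ^ 2 := by positivity
  have hPn : P ∣ 4 * u ^ 2 := (hPu.pow (by norm_num)).mul_left 4
  have hA := theoremA rfl hP hP2 hPu h hpm hh (badQ u P)
    (fun q hq => Nat.prime_of_mem_primeFactors (mem_filter.mp hq).1) (by
      intro q hq hqu hqQ
      by_cases hqP : q = P
      · subst hqP
        exact ⟨0, good_self hq hPn⟩
      · apply good_of_not_wief hu hP hP2 hPu hPu2 hmax hq hqP hqu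
        intro hW
        apply hqQ
        refine mem_filter.mpr ⟨Nat.mem_primeFactors.mpr ⟨hq, hqu, hu.ne'⟩, hqP, ?_⟩
        have h1 : 1 < P ^ 2 := Nat.one_lt_pow (by norm_num) hP.one_lt
        rw [hW, Nat.mod_eq_of_lt h1]) hbad
  have h1 := totient_lower hn0
  have h2 := card_primeFactors_le_log hn0
  have h3 : 0 < (4 * u ^ 2).totient := Nat.totient_pos.mpr hn0
  have h4 : P * (4 * u ^ 2).totient ≤ ((4 * u ^ 2).primeFactors.card + 1) *
      (4 * u ^ 2).totient := by
    calc P * (4 * u ^ 2).totient ≤ 4 * u ^ 2 := hA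
      _ ≤ _ := h1
      _ = _ := Nat.mul_comm _ _
  have h5 := Nat.le_of_mul_le_mul_right h4 h3
  omega

end P033
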