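import Vale.Agent.P033.Mertens

/-!
# P033, module SMOOTH: averages of the smooth part
-/

namespace P033

open Finset

/-- Logarithm of the `y`-smooth part of `u`. -/
noncomputable def logS (y u : ℕ) : ℝ :=
  ∑ q ∈ (range (y + 1)).filter Nat.Prime, (u.factorization q : ℝ) * Real.log q

/-- Number of prime factors `q ≤ b` of `u`. -/
def omegaB (b u : ℕ) : ℕ := (((range (b + 1)).filter Nat.Prime).filter fun q => q ∣ u).card

/-- `∑_{u ≤ x} v_q(u) = v_q(x!) ≤ x / (q-1)`. -/
theorem sum_factorization_le {q x : ℕ} (hq : q.Prime) :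
    ∑ u ∈ Icc 1 x, (u.factorization q : ℝ) ≤ x / (q - 1) := by
  have h1 : ∑ u ∈ Icc 1 x, u.factorization q = x.factorial.factorization q := by
    have h0 : Icc 1 x = Ico 1 (x + 1) := by
      ext u
      simp only [mem_Icc, mem_Ico]
      omega
    rw [h0, ← prod_Ico_id_eq_factorial, Nat.factorization_prod]
    · simp
    · intro u hu
      rw [mem_Ico] at hu
      omega
  have h2 := Nat.factorization_factorial_le_div_pred hq x
  rw [← h1] at h2
  have h3 : ((x / (q - 1) : ℕ) : ℝ) ≤ (x : ℝ) / ((q - 1 : ℕ) : ℝ) := Nat.cast_div_le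
  rw [Nat.cast_sub hq.one_le] at h3
  have h4 : ((∑ u ∈ Icc 1 x, u.factorization q : ℕ) : ℝ) ≤ ((x / (q - 1) : ℕ) : ℝ) := by
    exact_mod_cast h2
  push_cast at h3 h4
  exact h4.trans h3

theorem sum_logS {x y : ℕ} (hy : 1 ≤ y) :
    ∑ u ∈ Icc 1 x, logS y u ≤ x * (2 * Real.log y + 2 * Real.log 4) := by
  unfold logS
  rw [sum_comm]
  calc ∑ q ∈ (range (y + 1)).filter Nat.Prime, ∑ u ∈ Icc 1 x,
        (u.factorization q : ℝ) * Real.log q
      ≤ ∑ q ∈ (range (y + 1)).filter Nat.Prime, x * (Real.log q / (q - 1)) := by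
        refine sum_le_sum fun q hq => ?_
        rw [← sum_mul, mul_div_assoc', mul_comm (x : ℝ) (Real.log q), mul_div_assoc,
          mul_comm (Real.log q)]
        exact mul_le_mul_of_nonneg_right (sum_factorization_le (mem_filter.mp hq).2)
          (Real.log_natCast_nonneg q)
    _ = x * ∑ q ∈ (range (y + 1)).filter Nat.Prime, Real.log q / (q - 1) := by
        rw [mul_sum]
    _ ≤ x * (2 * Real.log y + 2 * Real.log 4) :=
        mul_le_mul_of_nonneg_left (sum_log_div_sub hy) (Nat.cast_nonneg x)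

theorem sum_omegaB {x b : ℕ} :
    ∑ u ∈ Icc 1 x, (omegaB b u : ℝ) ≤
      x * ∑ q ∈ (range (b + 1)).filter Nat.Prime, (1 : ℝ) / q := by
  have h1 : ∀ u, (omegaB b u : ℝ) =
      ∑ q ∈ (range (b + 1)).filter Nat.Prime, if q ∣ u then (1 : ℝ) else 0 := by
    intro u
    unfold omegaB
    rw [card_filter]
    push_cast
    rfl
  simp_rw [h1]
  rw [sum_comm, mul_sum]
  refine sum_le_sum fun q hq => ?_
  rw [← sum_filter, sum_const, nsmul_eq_mul, mul_one, mul_one_div]
  have h2 : (Icc 1 x).filter (fun u => q ∣ u) = (Ioc 0 x).filter (fun u => q ∣ u) := by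
    ext u
    simp only [mem_filter, mem_Icc, mem_Ioc]
    constructor
    · rintro ⟨⟨h, h'⟩, h''⟩
      exact ⟨⟨by omega, h'⟩, h''⟩
    · rintro ⟨⟨h, h'⟩, h''⟩
      exact ⟨⟨by omega, h'⟩, h''⟩
  rw [h2, Nat.Ioc_filter_dvd_card_eq_div]
  exact Nat.cast_div_le

/-- If all prime factors of `u > 0` are `≤ y` then `logS y u = log u`. -/
theorem logS_eq {y u : ℕ} (hu : 0 < u) (h : ∀ p, p.Prime → p ∣ u → p ≤ y) :
    logS y u = Real.log u := by
  unfold logS
  rw [Real.log_nat_eq_sum_factorization, Finsupp.sum]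
  symm
  apply sum_subset
  · intro p hp
    rw [Nat.support_factorization] at hp
    rw [mem_filter, mem_range]
    have hpr := Nat.prime_of_mem_primeFactors hp
    have := h p hpr (Nat.dvd_of_mem_primeFactors hp)
    exact ⟨by omega, hpr⟩
  · intro p _ hp
    rw [Finsupp.notMem_support_iff] at hp
    rw [hp]
    simp

end P033
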