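import Mathlib

/-!
# P033, module WIEF: sums over Wieferich bases
-/

namespace P033

open Finset

/-- Primes `q` in `(b, P)` with `q ^ (P-1) ≡ 1 mod P²`. -/
def wiefA (P b : ℕ) : Finset ℕ :=
  (Finset.Ioo b P).filter fun q => q.Prime ∧ q ^ (P - 1) % P ^ 2 = 1

theorem wief_modEq {P m : ℕ} (hP : P.Prime) (h : m ^ (P - 1) % P ^ 2 = 1) :
    ((P : ℤ) ^ 2) ∣ ((m : ℤ) ^ P - m) := by
  have h1 : m ^ (P - 1) ≡ 1 [MOD P ^ 2] := by
    unfold Nat.ModEq
    rw [h, Nat.mod_eq_of_lt (Nat.one_lt_pow (by norm_num) hP.one_lt)]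
  have h2 := (Nat.modEq_iff_dvd.1 h1.symm)
  have h3 : ((m : ℤ) ^ P - m) = (((m ^ (P - 1) : ℕ) : ℤ) - ((1 : ℕ) : ℤ)) * m := by
    have : m ^ P = m ^ (P - 1) * m := by
      rw [← pow_succ, Nat.sub_add_cancel hP.one_lt.le]
    have h4 : (m : ℤ) ^ P = (m : ℤ) ^ (P - 1) * m := by exact_mod_cast this
    rw [h4]; push_cast; ring
  rw [h3]
  have h5 : ((P : ℤ) ^ 2) = ((P ^ 2 : ℕ) : ℤ) := by push_cast; rfl
  rw [h5]
  exact h2.mul_right _

/-- There are at most `P` residues `m` mod `P²` with `m ^ (P-1) ≡ 1`; so every block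
`[j P², (j+1) P²)` contains at most `P` such `m`. -/
theorem card_wief_block {P : ℕ} (hP : P.Prime) (j : ℕ) :
    ((Finset.Ico (j * P ^ 2) ((j + 1) * P ^ 2)).filter
      fun m => m ^ (P - 1) % P ^ 2 = 1).card ≤ P := by
  have h0 : ((Finset.Ico (j * P ^ 2) ((j + 1) * P ^ 2)).filter
      fun m => m ^ (P - 1) % P ^ 2 = 1).card ≤ (Finset.range P).card := by
    refine Finset.card_le_card_of_injOn (fun m => m % P) ?_ ?_
    · intro m _
      simp only [Finset.coe_range, Set.mem_Iio]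
      exact Nat.mod_lt _ hP.pos
    · intro m hm m' hm' hmm
      simp only [Finset.coe_filter, Finset.mem_Ico, Set.mem_ofPred_eq] at hm hm'
      have hmm' : m ≡ m' [MOD P] := hmm
      have h1 : ((P : ℕ) : ℤ) ∣ (m : ℤ) - m' := Nat.modEq_iff_dvd.1 hmm'.symm
      have h2 := dvd_sub_pow_of_dvd_sub h1 1
      rw [pow_one] at h2
      have h3 := wief_modEq hP hm.2
      have h4 := wief_modEq hP hm'.2
      have h5 : ((P : ℤ) ^ 2) ∣ (m : ℤ) - m' := by
        have : (m : ℤ) - m' = ((m : ℤ) ^ P - (m' : ℤ) ^ P) - ((m : ℤ) ^ P - m) +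
            ((m' : ℤ) ^ P - m') := by ring
        rw [this]
        exact dvd_add (dvd_sub h2 h3) h4
      obtain ⟨t, ht⟩ := h5
      have hb1 : ((j * P ^ 2 : ℕ) : ℤ) ≤ m := by exact_mod_cast hm.1.1
      have hb2 : (m : ℤ) < (((j + 1) * P ^ 2 : ℕ) : ℤ) := by exact_mod_cast hm.1.2
      have hb3 : ((j * P ^ 2 : ℕ) : ℤ) ≤ m' := by exact_mod_cast hm'.1.1
      have hb4 : (m' : ℤ) < (((j + 1) * P ^ 2 : ℕ) : ℤ) := by exact_mod_cast hm'.1.2
      push_cast at hb1 hb2 hb3 hb4
      have hPpos : (0 : ℤ) < (P : ℤ) ^ 2 := by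
        have : (0 : ℤ) < P := by exact_mod_cast hP.pos
        positivity
      have ht1 : t < 1 := by
        by_contra hcon
        push Not at hcon
        nlinarith
      have ht2 : -1 < t := by
        by_contra hcon
        push Not at hcon
        nlinarith
      have ht0 : t = 0 := by omega
      rw [ht0, mul_zero] at ht
      have : (m : ℤ) = m' := by linarith
      exact_mod_cast this
  rwa [Finset.card_range] at h0

/-- Sum of `1/m` over `P² ≤ m < P^k` with `m ^ (P-1) ≡ 1 mod P²`. -/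
theorem sum_wief_large {P k : ℕ} (hP : P.Prime) (hk : 2 ≤ k) :
    ∑ m ∈ (Finset.Ico (P ^ 2) (P ^ k)).filter (fun m => m ^ (P - 1) % P ^ 2 = 1),
      (1 : ℝ) / m ≤ (1 + k * Real.log P) / P := by
  have hPpos : 0 < P := hP.pos
  have hP2 : 0 < P ^ 2 := by positivity
  have hPR : (0 : ℝ) < P := by exact_mod_cast hPpos
  obtain ⟨n, hn⟩ : ∃ n, n = P ^ (k - 2) := ⟨_, rfl⟩
  have hn1 : 1 ≤ n := by rw [hn]; exact Nat.one_le_pow _ _ hPpos
  have hkn : P ^ k = n * P ^ 2 := by
    rw [hn, ← pow_add, Nat.sub_add_cancel hk]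
  have hmaps : ∀ m ∈ (Finset.Ico (P ^ 2) (P ^ k)).filter (fun m => m ^ (P - 1) % P ^ 2 = 1),
      m / P ^ 2 ∈ Finset.Ico 1 n := by
    intro m hm
    rw [Finset.mem_filter, Finset.mem_Ico] at hm
    rw [Finset.mem_Ico]
    refine ⟨?_, ?_⟩
    · rw [Nat.one_le_div_iff hP2]; exact hm.1.1
    · rw [Nat.div_lt_iff_lt_mul hP2, ← hkn]; exact hm.1.2
  rw [← Finset.sum_fiberwise_of_maps_to hmaps]
  have hblock : ∀ j ∈ Finset.Ico 1 n,
      ∑ m ∈ ((Finset.Ico (P ^ 2) (P ^ k)).filter (fun m => m ^ (P - 1) % P ^ 2 = 1)).filter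
        (fun m => m / P ^ 2 = j), (1 : ℝ) / m ≤ 1 / P * (1 / j) := by
    intro j hj
    rw [Finset.mem_Ico] at hj
    have hjR : (0 : ℝ) < j := by exact_mod_cast (by omega : 0 < j)
    have h1 : ∀ m ∈ ((Finset.Ico (P ^ 2) (P ^ k)).filter
        (fun m => m ^ (P - 1) % P ^ 2 = 1)).filter (fun m => m / P ^ 2 = j),
        (1 : ℝ) / m ≤ 1 / (j * (P : ℝ) ^ 2) := by
      intro m hm
      rw [Finset.mem_filter] at hm
      have h2 : j * P ^ 2 ≤ m := by
        rw [← hm.2]; exact Nat.div_mul_le_self m (P ^ 2)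
      have h3 : (j : ℝ) * (P : ℝ) ^ 2 ≤ m := by exact_mod_cast h2
      exact one_div_le_one_div_of_le (by positivity) h3
    refine (Finset.sum_le_sum h1).trans ?_
    rw [Finset.sum_const, nsmul_eq_mul]
    have h4 : (((Finset.Ico (P ^ 2) (P ^ k)).filter
        (fun m => m ^ (P - 1) % P ^ 2 = 1)).filter (fun m => m / P ^ 2 = j)).card ≤ P := by
      refine le_trans (Finset.card_le_card ?_) (card_wief_block hP j)
      intro m hm
      rw [Finset.mem_filter, Finset.mem_filter, Finset.mem_Ico] at hm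
      rw [Finset.mem_filter, Finset.mem_Ico]
      refine ⟨⟨?_, ?_⟩, hm.1.2⟩
      · rw [← hm.2]; exact Nat.div_mul_le_self m (P ^ 2)
      · have := Nat.lt_succ_iff.2 hm.2.le
        rw [Nat.div_lt_iff_lt_mul hP2] at this
        exact this
    have h5 : ((((Finset.Ico (P ^ 2) (P ^ k)).filter
        (fun m => m ^ (P - 1) % P ^ 2 = 1)).filter (fun m => m / P ^ 2 = j)).card : ℝ) ≤ P := by
      exact_mod_cast h4
    have h6 : (P : ℝ) * (1 / (j * (P : ℝ) ^ 2)) = 1 / P * (1 / j) := by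
      field_simp
    rw [← h6]
    exact mul_le_mul_of_nonneg_right h5 (by positivity)
  refine (Finset.sum_le_sum hblock).trans ?_
  rw [← Finset.mul_sum]
  have h7 : ∑ j ∈ Finset.Ico 1 n, (1 : ℝ) / j ≤ 1 + Real.log n := by
    have h8 := harmonic_le_one_add_log n
    refine le_trans ?_ h8
    rw [harmonic_eq_sum_Icc]
    push_cast
    simp_rw [one_div]
    refine Finset.sum_le_sum_of_subset_of_nonneg ?_ (fun _ _ _ => by positivity)
    intro j hj
    rw [Finset.mem_Ico] at hj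
    rw [Finset.mem_Icc]
    omega
  have h9 : Real.log n ≤ k * Real.log P := by
    rw [hn]
    push_cast
    rw [Real.log_pow]
    have h10 : 0 ≤ Real.log P := Real.log_natCast_nonneg P
    have h11 : ((k - 2 : ℕ) : ℝ) ≤ k := by exact_mod_cast Nat.sub_le k 2
    exact mul_le_mul_of_nonneg_right h11 h10
  rw [div_eq_mul_one_div (1 + k * Real.log P), mul_comm (1 + k * Real.log P)]
  exact mul_le_mul_of_nonneg_left (by linarith) (by positivity)

theorem countPerms_le' {α : Type*} [DecidableEq α] (m : Multiset α) :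
    m.countPerms ≤ m.card.factorial := by
  unfold Multiset.countPerms Finsupp.multinomial
  refine (Nat.div_le_self _ _).trans ?_
  rw [Multiset.toFinsupp_sum_eq]

theorem prod_one_div' (s : Multiset ℕ) :
    (s.map (fun q : ℕ => (1 : ℝ) / q)).prod = 1 / ((s.prod : ℕ) : ℝ) := by
  induction s using Multiset.induction with
  | empty => simp
  | cons a s ih =>
    rw [Multiset.map_cons, Multiset.prod_cons, Multiset.prod_cons, ih]
    push_cast
    rw [one_div_mul_one_div]

theorem primes_prod_inj {s t : Multiset ℕ} (hs : ∀ p ∈ s, p.Prime) (ht : ∀ p ∈ t, p.Prime)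
    (h : s.prod = t.prod) : s = t := by
  induction s using Quotient.inductionOn with
  | _ l =>
    induction t using Quotient.inductionOn with
    | _ l' =>
      have hl : ∀ p ∈ l, p.Prime := fun p hp => hs p (by simpa using hp)
      have hl' : ∀ p ∈ l', p.Prime := fun p hp => ht p (by simpa using hp)
      have h' : l.prod = l'.prod := by simpa using h
      have h1 := Nat.primeFactorsList_unique h' hl
      have h2 := Nat.primeFactorsList_unique (rfl : l'.prod = l'.prod) hl'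
      exact Quotient.sound (h1.trans h2.symm)

theorem pow_mod_one {M c : ℕ} (hM : 1 < M) (s : Multiset ℕ) (h : ∀ q ∈ s, q ^ c % M = 1) :
    s.prod ^ c % M = 1 := by
  induction s using Multiset.induction with
  | empty => simp [Nat.mod_eq_of_lt hM]
  | cons a s ih =>
    rw [Multiset.prod_cons, mul_pow, Nat.mul_mod, h a (Multiset.mem_cons_self a s),
      ih (fun q hq => h q (Multiset.mem_cons_of_mem hq)), one_mul, Nat.mod_eq_of_lt hM]

theorem prod_between (b P : ℕ) (s : Multiset ℕ) (h : ∀ q ∈ s, b < q ∧ q < P) :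
    b ^ s.card ≤ s.prod ∧ (s ≠ 0 → s.prod < P ^ s.card) := by
  induction s using Multiset.induction with
  | empty => simp
  | cons a s ih =>
    have ih' := ih (fun q hq => h q (Multiset.mem_cons_of_mem hq))
    have ha := h a (Multiset.mem_cons_self a s)
    rw [Multiset.prod_cons, Multiset.card_cons]
    refine ⟨?_, ?_⟩
    · rw [pow_succ, mul_comm]
      exact Nat.mul_le_mul ha.1.le ih'.1
    · intro _
      rcases eq_or_ne s 0 with h0 | h0
      · rw [h0]; simpa using ha.2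
      · rw [pow_succ, mul_comm]
        exact Nat.mul_lt_mul_of_lt_of_le (ih'.2 h0) ha.2.le (by omega)

/-- `k`-fold products: `(∑ 1/q)^k ≤ k! ∑_m 1/m` (`Finset.sum_pow`, unique factorization: the number
of orderings of a multiset of `k` primes is at most `k!`). -/
theorem wief_pow {P b k : ℕ} (hP : P.Prime) (hk : 2 ≤ k) (hbk : P ^ 2 ≤ b ^ k) :
    (∑ q ∈ wiefA P b, (1 : ℝ) / q) ^ k ≤ k.factorial * ((1 + k * Real.log P) / P) := by
  rw [Finset.sum_pow]
  have h1 : ∀ κ ∈ (wiefA P b).sym k, ((κ.1.countPerms : ℕ) : ℝ) *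
      (κ.1.map (fun q : ℕ => (1 : ℝ) / q)).prod ≤
      (k.factorial : ℝ) * (1 / ((κ.1.prod : ℕ) : ℝ)) := by
    intro κ _
    rw [prod_one_div']
    have h2 := countPerms_le' κ.1
    have h3 : κ.1.card = k := κ.2
    rw [h3] at h2
    have h4 : ((κ.1.countPerms : ℕ) : ℝ) ≤ (k.factorial : ℝ) := by exact_mod_cast h2
    exact mul_le_mul_of_nonneg_right h4 (by positivity)
  refine (Finset.sum_le_sum h1).trans ?_
  rw [← Finset.mul_sum]
  refine mul_le_mul_of_nonneg_left ?_ (by positivity)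
  refine le_trans ?_ (sum_wief_large hP hk)
  have hmem : ∀ κ ∈ (wiefA P b).sym k, ∀ q ∈ κ.1, (b < q ∧ q < P) ∧
      (q.Prime ∧ q ^ (P - 1) % P ^ 2 = 1) := by
    intro κ hκ q hq
    have h5 := Finset.mem_sym_iff.1 hκ q hq
    unfold wiefA at h5
    rw [Finset.mem_filter, Finset.mem_Ioo] at h5
    exact h5
  have hinj : Set.InjOn (fun κ : Sym ℕ k => κ.1.prod) ((wiefA P b).sym k : Set (Sym ℕ k)) := by
    intro κ hκ κ' hκ' he
    have h6 := hmem κ (Finset.mem_coe.1 hκ)
    have h7 := hmem κ' (Finset.mem_coe.1 hκ')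
    exact Subtype.ext (primes_prod_inj (fun p hp => (h6 p hp).2.1)
      (fun p hp => (h7 p hp).2.1) he)
  have h8 : ∑ κ ∈ (wiefA P b).sym k, (1 : ℝ) / ((κ.1.prod : ℕ) : ℝ) =
      ∑ m ∈ ((wiefA P b).sym k).image (fun κ : Sym ℕ k => κ.1.prod), (1 : ℝ) / m := by
    rw [Finset.sum_image hinj]
  rw [h8]
  refine Finset.sum_le_sum_of_subset_of_nonneg ?_ (fun _ _ _ => by positivity)
  intro m hm
  rw [Finset.mem_image] at hm
  obtain ⟨κ, hκ, rfl⟩ := hm
  have h9 := hmem κ hκ
  have hcard : κ.1.card = k := κ.2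
  have h10 := prod_between b P κ.1 (fun q hq => (h9 q hq).1)
  rw [hcard] at h10
  have hne : κ.1 ≠ 0 := by
    intro h0
    rw [h0, Multiset.card_zero] at hcard
    omega
  rw [Finset.mem_filter, Finset.mem_Ico]
  refine ⟨⟨hbk.trans h10.1, h10.2 hne⟩, ?_⟩
  exact pow_mod_one (Nat.one_lt_pow (by norm_num) hP.one_lt) κ.1 (fun q hq => (h9 q hq).2.2)

end P033
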