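import Vale.Agent.P033.Crit
import Vale.Agent.P033.Smooth
import Vale.Agent.P033.Wief

/-!
# P033, module DET: deterministic exclusion of `u`
-/

namespace P033

open Finset

/-- If `u` (with largest prime factor `> y`) avoids the exceptional events then there is no perfect
sequence of period `4u²`. -/
theorem not_hasPerf {x y b T u w : ℕ} {s : ℝ} (hu : 0 < u) (hux : u ≤ x) (hy : 2 ≤ y)
    (h1 : ∃ p, p.Prime ∧ p ∣ u ∧ y < p)
    (h2 : ∀ P, P.Prime → y < P → ¬ P ^ 2 ∣ u)
    (h3 : ∀ P, P.Prime → y < P → P ∣ u → ∀ q ∈ wiefA P b, ¬ q ∣ u)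
    (h4 : ∀ P, P.Prime → y < P → P ∣ u → ∀ q, q.Prime → q ≤ b → q ≠ P → T < orderOf (q : ZMod P))
    (h5 : omegaB b u ≤ w) (h6 : logS b u ≤ s) (hT : 2 ^ (w + 2) * s ≤ Real.log T) (hT0 : 0 < T)
    (hlog : Nat.log 2 (4 * x ^ 2) + 1 ≤ y) : ¬ HasPerf (4 * u ^ 2) := by
  intro hperf
  obtain ⟨p, hp, hpu, hyp⟩ := h1
  have hne : u.primeFactors.Nonempty := ⟨p, Nat.mem_primeFactors.mpr ⟨hp, hpu, hu.ne'⟩⟩
  obtain ⟨P, hPmem, hPmax⟩ := u.primeFactors.exists_max_image id hne
  obtain ⟨hP, hPu, -⟩ := Nat.mem_primeFactors.mp hPmem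
  have hmax : ∀ q, q.Prime → q ∣ u → q ≤ P := fun q hq hqu =>
    hPmax q (Nat.mem_primeFactors.mpr ⟨hq, hqu, hu.ne'⟩)
  have hyP : y < P := lt_of_lt_of_le hyp (hmax p hp hpu)
  have hP2 : P ≠ 2 := by omega
  -- the bad primes are small
  have hbadb : ∀ q ∈ badQ u P, q ≤ b := by
    intro q hq
    rw [badQ, Finset.mem_filter] at hq
    obtain ⟨hq1, hq2, hq3⟩ := hq
    obtain ⟨hqp, hqu, -⟩ := Nat.mem_primeFactors.mp hq1
    by_contra hcon
    push Not at hcon
    refine h3 P hP hyP hPu q ?_ hqu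
    rw [wiefA, Finset.mem_filter, Finset.mem_Ioo]
    exact ⟨⟨hcon, lt_of_le_of_ne (hmax q hqp hqu) hq2⟩, hqp, hq3⟩
  have hsub : badQ u P ⊆ ((range (b + 1)).filter Nat.Prime).filter fun q => q ∣ u := by
    intro q hq
    have hqb := hbadb q hq
    rw [badQ, Finset.mem_filter] at hq
    obtain ⟨hqp, hqu, -⟩ := Nat.mem_primeFactors.mp hq.1
    rw [Finset.mem_filter, Finset.mem_filter, Finset.mem_range]
    exact ⟨⟨by omega, hqp⟩, hqu⟩
  have hcard : (badQ u P).card ≤ w := (Finset.card_le_card hsub).trans h5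
  have hsub' : badQ u P ⊆ (range (b + 1)).filter Nat.Prime :=
    hsub.trans (Finset.filter_subset _ _)
  set N : ℕ := ∏ p ∈ badQ u P, p ^ u.factorization p with hN
  have hNpos : 1 ≤ N := by
    have h8 : 0 < ∏ p ∈ badQ u P, p ^ u.factorization p := by
      refine Finset.prod_pos fun q hq => ?_
      have h7 := hsub' hq
      rw [Finset.mem_filter] at h7
      exact Nat.pow_pos h7.2.pos
    exact h8
  have hlogN : Real.log N ≤ s := by
    refine le_trans ?_ h6
    rw [hN, Nat.cast_prod, Real.log_prod]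
    · have e : ∀ q ∈ badQ u P, Real.log ((q ^ u.factorization q : ℕ) : ℝ) =
          (u.factorization q : ℝ) * Real.log q := by
        intro q _
        rw [Nat.cast_pow, Real.log_pow]
      rw [Finset.sum_congr rfl e, logS]
      refine Finset.sum_le_sum_of_subset_of_nonneg hsub' fun q hq _ => ?_
      exact mul_nonneg (Nat.cast_nonneg _) (Real.log_natCast_nonneg _)
    · intro q hq
      have := hsub' hq
      rw [Finset.mem_filter] at this
      have := this.2.pos
      positivity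
  have hNT : N ^ (2 ^ ((badQ u P).card + 2)) ≤ T := by
    have h7 : N ^ (2 ^ ((badQ u P).card + 2)) ≤ N ^ (2 ^ (w + 2)) :=
      Nat.pow_le_pow_right hNpos (Nat.pow_le_pow_right (by norm_num) (by omega))
    refine h7.trans ?_
    have hNR : (0 : ℝ) < N := by exact_mod_cast hNpos
    have hTR : (0 : ℝ) < T := by exact_mod_cast hT0
    have h8 : Real.log ((N : ℝ) ^ (2 ^ (w + 2))) ≤ Real.log T := by
      rw [Real.log_pow]
      refine le_trans ?_ hT
      push_cast
      exact mul_le_mul_of_nonneg_left hlogN (by positivity)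
    have h9 := (Real.log_le_log_iff (by positivity) hTR).mp h8
    exact_mod_cast h9
  have hcrit := criterion hu hP hP2 hPu (h2 P hP hyP) hmax hperf fun q hq => by
    have hqb := hbadb q hq
    rw [badQ, Finset.mem_filter] at hq
    obtain ⟨hqp, hqu, -⟩ := Nat.mem_primeFactors.mp hq.1
    exact lt_of_le_of_lt hNT (h4 P hP hyP hPu q hqp hqb hq.2.1)
  have h10 : Nat.log 2 (4 * u ^ 2) ≤ Nat.log 2 (4 * x ^ 2) :=
    Nat.log_mono_right (Nat.mul_le_mul_left _ (Nat.pow_le_pow_left hux 2))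
  omega

end P033
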