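import Mathlib

/-!
# P033, module GAL + ROOT: Galois action and roots of unity in `ℚ(ζ_n)`
-/

namespace P033

variable {n : ℕ} [NeZero n] {K : Type*} [Field K] [NumberField K]
  [IsCyclotomicExtension {n} ℚ K] {ζ : K}

/-- GAL. For `t` prime to `n` there is an automorphism with `ζ ↦ ζ ^ t`
(`IsCyclotomicExtension.autEquivPow`, `IsCyclotomicExtension.Rat.galEquivZMod`). -/
theorem exists_aut (hζ : IsPrimitiveRoot ζ n) {t : ℕ} (ht : t.Coprime n) :
    ∃ τ : K ≃ₐ[ℚ] K, τ ζ = ζ ^ t := by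
  refine ⟨(IsCyclotomicExtension.Rat.galEquivZMod n K).symm (ZMod.unitOfCoprime t ht), ?_⟩
  rw [IsCyclotomicExtension.Rat.galEquivZMod_apply_of_pow_eq n K _ hζ.pow_eq_one,
    MulEquiv.apply_symm_apply, ZMod.coe_unitOfCoprime, ZMod.val_natCast]
  conv_lhs => rw [hζ.eq_orderOf]
  exact pow_mod_orderOf ζ t

/-- Every automorphism raises `ζ` to a power. -/
theorem exists_pow_of_aut (hζ : IsPrimitiveRoot ζ n) (σ : K ≃ₐ[ℚ] K) :
    ∃ t : ℕ, σ ζ = ζ ^ t :=
  ⟨_, IsCyclotomicExtension.Rat.galEquivZMod_apply_of_pow_eq n K σ hζ.pow_eq_one⟩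

/-- GAL. Automorphisms are determined by the image of `ζ`. -/
theorem aut_ext (hζ : IsPrimitiveRoot ζ n) {σ τ : K ≃ₐ[ℚ] K} (h : σ ζ = τ ζ) : σ = τ := by
  have : (σ : K →ₐ[ℚ] K) = (τ : K →ₐ[ℚ] K) := by
    apply (hζ.powerBasis ℚ).algHom_ext
    simpa [IsPrimitiveRoot.powerBasis_gen] using h
  exact AlgEquiv.coe_toAlgHom_injective this

/-- GAL. The Galois group is abelian. -/
theorem aut_comm (hζ : IsPrimitiveRoot ζ n) (σ τ : K ≃ₐ[ℚ] K) : σ * τ = τ * σ := by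
  apply aut_ext hζ
  obtain ⟨a, ha⟩ := exists_pow_of_aut hζ σ
  obtain ⟨b, hb⟩ := exists_pow_of_aut hζ τ
  simp only [AlgEquiv.mul_apply, ha, hb, map_pow]
  rw [← pow_mul, ← pow_mul, mul_comm]

/-- GAL. The automorphism `ζ ↦ ζ⁻¹` is complex conjugation in every embedding. -/
theorem emb_conj (hζ : IsPrimitiveRoot ζ n) {c : K ≃ₐ[ℚ] K} (hc : c ζ = ζ⁻¹)
    (φ : K →+* ℂ) (x : K) : φ (c x) = (starRingEnd ℂ) (φ x) := by
  have hζn : ‖φ ζ‖ = 1 := by
    have h1 : (φ ζ) ^ n = 1 := by rw [← map_pow, hζ.pow_eq_one, map_one]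
    exact Complex.norm_eq_one_of_pow_eq_one h1 (NeZero.ne n)
  have key : (RingHom.toRatAlgHom (φ.comp (c : K →+* K))) =
      (RingHom.toRatAlgHom ((starRingEnd ℂ).comp φ)) := by
    apply (hζ.powerBasis ℚ).algHom_ext
    rw [IsPrimitiveRoot.powerBasis_gen]
    change φ (c ζ) = (starRingEnd ℂ) (φ ζ)
    rw [hc, map_inv₀, Complex.inv_eq_conj hζn]
  exact DFunLike.congr_fun key x

/-- GAL. Algebraic integers of `K` are `ℤ`-combinations of powers of `ζ`
(`IsCyclotomicExtension.Rat.isIntegralClosure_adjoin_singleton`). -/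
theorem mem_span_of_isIntegral (hζ : IsPrimitiveRoot ζ n) {x : K} (hx : IsIntegral ℤ x) :
    x ∈ Submodule.span ℤ (Set.range fun i : ℕ => ζ ^ i) := by
  obtain ⟨y, hy⟩ :=
    (IsCyclotomicExtension.Rat.isIntegralClosure_adjoin_singleton hζ).isIntegral_iff.1 hx
  have hxm : x ∈ Algebra.adjoin ℤ ({ζ} : Set K) := by
    rw [← hy]
    exact y.2
  rw [Algebra.adjoin_singleton_eq_range_aeval] at hxm
  obtain ⟨p, hp⟩ := hxm
  have hp' : Polynomial.aeval ζ p = x := hp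
  rw [← hp', Polynomial.aeval_eq_sum_range]
  refine Submodule.sum_mem _ fun i _ => ?_
  exact Submodule.smul_mem _ _ (Submodule.subset_span ⟨i, rfl⟩)

end P033
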