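import Vale.Agent.P033.Asym

/-!
# P033, module FINAL
-/

namespace P033

open Finset Filter Topology

/-- The circulant matrix of order `n` with first row `h 0, …, h (n-1)`: its `(i, j)` entry is
`h ((j - i) mod n)`. -/
def circ (n : ℕ) (h : ℕ → ℝ) : Matrix (Fin n) (Fin n) ℝ :=
  Matrix.of fun i j => h ((j.val + n - i.val) % n)

/-- There is a real circulant Hadamard matrix of order `n`. -/
def HasCirculantHadamard (n : ℕ) : Prop :=
  1 ≤ n ∧ ∃ h : ℕ → ℝ, (∀ i, h i = 1 ∨ h i = -1) ∧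
    circ n h * (circ n h).transpose = (n : ℝ) • (1 : Matrix (Fin n) (Fin n) ℝ)

/-- The inner product of two rows, as a sum over `ZMod n`. -/
theorem sum_rows {n : ℕ} [NeZero n] (h : ℕ → ℝ) (i k : Fin n) :
    (circ n h * (circ n h).transpose) i k =
      ∑ x : ZMod n, h (x - (i.val : ZMod n)).val * h (x - (k.val : ZMod n)).val := by
  rw [Matrix.mul_apply]
  have hval : ∀ (j i : Fin n), (j.val + n - i.val) % n = ((j.val : ZMod n) - (i.val : ZMod n)).val := by
    intro j i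
    have h1 : ((j.val + n - i.val : ℕ) : ZMod n) = (j.val : ZMod n) - (i.val : ZMod n) := by
      rw [Nat.cast_sub (by omega), Nat.cast_add, ZMod.natCast_self, add_zero]
    rw [← h1, ZMod.val_natCast]
  refine Finset.sum_bij' (fun (j : Fin n) _ => ((j.val : ℕ) : ZMod n))
    (fun (x : ZMod n) _ => (⟨x.val, x.val_lt⟩ : Fin n)) ?_ ?_ ?_ ?_ ?_
  · intro j _; exact Finset.mem_univ _
  · intro x _; exact Finset.mem_univ _
  · intro j _
    apply Fin.ext
    simp [ZMod.val_natCast, Nat.mod_eq_of_lt j.isLt]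
  · intro x _
    simp
  · intro j _
    simp only [circ, Matrix.transpose_apply, Matrix.of_apply]
    rw [hval, hval]

/-- A circulant Hadamard matrix gives a perfect sign sequence. -/
theorem hasPerf_of_circ {n : ℕ} (h : HasCirculantHadamard n) : HasPerf n := by
  obtain ⟨hn, h, hpm, hH⟩ := h
  have hne : NeZero n := ⟨by omega⟩
  refine ⟨hne, fun x => if h x.val = 1 then 1 else -1, fun x => ?_, fun t ht => ?_⟩
  · by_cases hx : h x.val = 1
    · left; simp [hx]
    · right; simp [hx]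
  · have hcast : ∀ x : ZMod n, (((if h x.val = 1 then 1 else -1 : ℤ)) : ℝ) = h x.val := by
      intro x
      rcases hpm x.val with h1 | h1
      · simp [h1]
      · rw [h1]; norm_num
    have h0 : 0 < n := by omega
    -- rows `0` and `i` with `i = (-t).val`
    let i : Fin n := ⟨0, h0⟩
    let k : Fin n := ⟨(-t).val, (-t).val_lt⟩
    have hik : i ≠ k := by
      intro hEq
      have h2 : (0 : ℕ) = (-t).val := congrArg Fin.val hEq
      have h3 : (-t) = 0 := (ZMod.val_eq_zero (-t)).1 h2.symm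
      exact ht (neg_eq_zero.1 h3)
    have h4 := sum_rows h i k
    rw [hH, Matrix.smul_apply, Matrix.one_apply_ne hik, smul_zero] at h4
    have h5 : ∀ x : ZMod n, h (x - (i.val : ZMod n)).val * h (x - (k.val : ZMod n)).val =
        (((if h x.val = 1 then 1 else -1 : ℤ) *
          (if h (x + t).val = 1 then 1 else -1 : ℤ) : ℤ) : ℝ) := by
      intro x
      rw [Int.cast_mul, hcast, hcast]
      have h6 : x - ((i.val : ℕ) : ZMod n) = x := by simp [i]
      have h7 : x - ((k.val : ℕ) : ZMod n) = x + t := by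
        simp [k]
      rw [h6, h7]
    rw [Finset.sum_congr rfl fun x _ => h5 x, ← Int.cast_sum] at h4
    exact_mod_cast h4.symm

/-- Perfect sign sequences of period `n ≥ 2` have `n = 4u²`. -/
theorem four_sq_of_hasPerf {n : ℕ} (hn : 2 ≤ n) (h : HasPerf n) : ∃ u, 0 < u ∧ n = 4 * u ^ 2 := by
  obtain ⟨hne, h, hpm, hperf⟩ := h
  have hsq : ∀ x, h x * h x = 1 := by
    intro x
    rcases hpm x with h1 | h1 <;> rw [h1] <;> norm_num
  -- `(∑ h)² = n`
  have h1 : (∑ x, h x) ^ 2 = (n : ℤ) := by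
    have h2 : (∑ x, h x) ^ 2 = ∑ t : ZMod n, ∑ x, h x * h (x + t) := by
      rw [Finset.sum_comm, pow_two, Finset.sum_mul]
      refine Finset.sum_congr rfl fun x _ => ?_
      rw [Finset.mul_sum]
      exact (Fintype.sum_equiv (Equiv.addLeft x) (fun t => h x * h (x + t)) (fun y => h x * h y)
        (fun t => rfl)).symm
    rw [h2, Finset.sum_eq_single (0 : ZMod n)]
    · simp [hsq]
    · intro t _ ht
      exact hperf t ht
    · intro h3
      exact absurd (Finset.mem_univ _) h3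
  -- `n` is even
  have h3 : Even n := by
    have h4 := hperf 1 (by
      have : Fact (1 < n) := ⟨by omega⟩
      exact one_ne_zero)
    have h5 : (∑ x : ZMod n, (h x * h (x + 1))) ≡ ∑ x : ZMod n, 1 [ZMOD 2] := by
      apply Int.ModEq.sum
      intro x _
      rcases hpm x with h6 | h6 <;> rcases hpm (x + 1) with h7 | h7 <;> rw [h6, h7] <;> decide
    rw [h4] at h5
    simp only [Finset.sum_const, Finset.card_univ, ZMod.card, nsmul_eq_mul, mul_one] at h5
    have h6 : (2 : ℤ) ∣ (n : ℤ) := (Int.modEq_zero_iff_dvd).1 h5.symm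
    exact even_iff_two_dvd.2 (by exact_mod_cast h6)
  have h4 : Even (∑ x, h x) := by
    have h5 : Even ((∑ x, h x) ^ 2) := by
      rw [h1]
      exact_mod_cast h3
    exact (Int.even_pow.1 h5).1
  obtain ⟨r, hr⟩ := h4
  refine ⟨r.natAbs, ?_, ?_⟩
  · rw [Int.natAbs_pos]
    rintro rfl
    rw [hr] at h1
    simp at h1
    omega
  · have h6 : (n : ℤ) = 4 * r ^ 2 := by rw [← h1, hr]; ring
    have h7 : ((4 * r.natAbs ^ 2 : ℕ) : ℤ) = 4 * r ^ 2 := by
      push_cast
      rw [sq_abs]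
    rw [← h7] at h6
    exact_mod_cast h6

theorem card_le (N : ℕ) : Nat.card {n : ℕ // n ≤ N ∧ HasCirculantHadamard n} ≤
    1 + Nat.card {u : ℕ // u ∈ Icc 1 (Nat.sqrt N) ∧ HasPerf (4 * u ^ 2)} := by
  set S : Set ℕ := {n | n ≤ N ∧ HasCirculantHadamard n} with hS
  set T : Set ℕ := {u | u ∈ Icc 1 (Nat.sqrt N) ∧ HasPerf (4 * u ^ 2)} with hT
  have hTf : T.Finite := (Finset.finite_toSet (Icc 1 (Nat.sqrt N))).subset fun u hu => hu.1
  have hsub : S ⊆ {1} ∪ (fun u => 4 * u ^ 2) '' T := by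
    rintro n ⟨hnN, hn⟩
    by_cases h1 : n = 1
    · left; exact h1
    · right
      have h2 : 2 ≤ n := by
        have := hn.1
        omega
      have hp := hasPerf_of_circ hn
      obtain ⟨u, hu, hnu⟩ := four_sq_of_hasPerf h2 hp
      refine ⟨u, ⟨?_, ?_⟩, hnu.symm⟩
      · rw [Finset.mem_Icc]
        refine ⟨hu, Nat.le_sqrt'.2 ?_⟩
        calc u ^ 2 ≤ 4 * u ^ 2 := by omega
          _ ≤ N := by rw [← hnu]; exact hnN
      · rw [← hnu]; exact hp
  have h1 : S.ncard ≤ ({1} ∪ (fun u => 4 * u ^ 2) '' T).ncard :=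
    Set.ncard_le_ncard hsub ((Set.finite_singleton 1).union (hTf.image _))
  have h2 : ({1} ∪ (fun u => 4 * u ^ 2) '' T).ncard ≤
      ({1} : Set ℕ).ncard + ((fun u => 4 * u ^ 2) '' T).ncard := Set.ncard_union_le _ _
  have h3 : ((fun u => 4 * u ^ 2) '' T).ncard ≤ T.ncard := Set.ncard_image_le hTf
  have h4 : Nat.card {n : ℕ // n ≤ N ∧ HasCirculantHadamard n} = S.ncard := rfl
  have h5 : Nat.card {u : ℕ // u ∈ Icc 1 (Nat.sqrt N) ∧ HasPerf (4 * u ^ 2)} = T.ncard := rfl
  rw [h4, h5]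
  rw [Set.ncard_singleton] at h2
  omega

/-- Circulant Hadamard matrices exist for at most `o(√N)` orders `n ≤ N`. -/
theorem main : Tendsto (fun N : ℕ => (Nat.card {n : ℕ // n ≤ N ∧ HasCirculantHadamard n} : ℝ) /
    Real.sqrt N) atTop (𝓝 0) := by
  rw [Metric.tendsto_atTop]
  intro ε hε
  obtain ⟨x₀, hx₀⟩ := density (ε / 2) (by positivity)
  obtain ⟨M, hM⟩ := exists_nat_gt (2 / ε)
  refine ⟨max (x₀ ^ 2) (M ^ 2 + 1), fun N hN => ?_⟩
  have hN1 : x₀ ^ 2 ≤ N := (le_max_left _ _).trans hN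
  have hN2 : M ^ 2 + 1 ≤ N := (le_max_right _ _).trans hN
  have hN0 : (0 : ℝ) < N := by
    have : 0 < N := by omega
    exact_mod_cast this
  have hs0 : 0 < Real.sqrt N := Real.sqrt_pos.2 hN0
  have h1 := card_le N
  have h2 := hx₀ (Nat.sqrt N) (Nat.le_sqrt'.2 hN1)
  have h3 : ((Nat.sqrt N : ℕ) : ℝ) ≤ Real.sqrt N := Real.nat_sqrt_le_real_sqrt
  have h4 : (Nat.card {n : ℕ // n ≤ N ∧ HasCirculantHadamard n} : ℝ) ≤
      1 + ε / 2 * Real.sqrt N := by
    calc (Nat.card {n : ℕ // n ≤ N ∧ HasCirculantHadamard n} : ℝ)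
        ≤ ((1 + Nat.card {u : ℕ // u ∈ Icc 1 (Nat.sqrt N) ∧ HasPerf (4 * u ^ 2)} : ℕ) : ℝ) := by
          exact_mod_cast h1
      _ ≤ 1 + ε / 2 * (Nat.sqrt N : ℕ) := by
          push_cast
          linarith
      _ ≤ 1 + ε / 2 * Real.sqrt N := by
          have : ε / 2 * ((Nat.sqrt N : ℕ) : ℝ) ≤ ε / 2 * Real.sqrt N :=
            mul_le_mul_of_nonneg_left h3 (by positivity)
          linarith
  have h5 : (M : ℝ) < Real.sqrt N := by
    apply Real.lt_sqrt_of_sq_lt
    have : M ^ 2 < N := by omega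
    exact_mod_cast this
  have h6 : 2 / ε < Real.sqrt N := hM.trans h5
  have h7 : 1 < ε / 2 * Real.sqrt N := by
    have := mul_lt_mul_of_pos_left h6 (show 0 < ε / 2 by positivity)
    have h8 : ε / 2 * (2 / ε) = 1 := by field_simp
    linarith
  rw [Real.dist_eq, sub_zero, abs_of_nonneg (by positivity), div_lt_iff₀ hs0]
  linarith

/-- The set of `u` for which a circulant Hadamard matrix of order `4u²` exists has density zero. -/
theorem density_u : Tendsto (fun x : ℕ =>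
    (Nat.card {u : ℕ // 1 ≤ u ∧ u ≤ x ∧ HasCirculantHadamard (4 * u ^ 2)} : ℝ) / x)
    atTop (𝓝 0) := by
  rw [Metric.tendsto_atTop]
  intro ε hε
  obtain ⟨x₀, hx₀⟩ := density (ε / 2) (by positivity)
  refine ⟨max x₀ 1, fun x hx => ?_⟩
  have hx1 : x₀ ≤ x := (le_max_left _ _).trans hx
  have hx2 : 1 ≤ x := (le_max_right _ _).trans hx
  have hx0 : (0 : ℝ) < x := by exact_mod_cast hx2
  set S : Set ℕ := {u | 1 ≤ u ∧ u ≤ x ∧ HasCirculantHadamard (4 * u ^ 2)} with hS
  set T : Set ℕ := {u | u ∈ Icc 1 x ∧ HasPerf (4 * u ^ 2)} with hT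
  have hTf : T.Finite := (Finset.finite_toSet (Icc 1 x)).subset fun u hu => hu.1
  have hsub : S ⊆ T := by
    rintro u ⟨h1, h2, h3⟩
    exact ⟨Finset.mem_Icc.2 ⟨h1, h2⟩, hasPerf_of_circ h3⟩
  have h1 : S.ncard ≤ T.ncard := Set.ncard_le_ncard hsub hTf
  have h4 : Nat.card {u : ℕ // 1 ≤ u ∧ u ≤ x ∧ HasCirculantHadamard (4 * u ^ 2)} = S.ncard := rfl
  have h5 : Nat.card {u : ℕ // u ∈ Icc 1 x ∧ HasPerf (4 * u ^ 2)} = T.ncard := rfl
  have h2 := hx₀ x hx1
  rw [h5] at h2
  have h6 : (S.ncard : ℝ) ≤ ε / 2 * x := by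
    calc (S.ncard : ℝ) ≤ T.ncard := by exact_mod_cast h1
      _ ≤ ε / 2 * x := h2
  rw [h4, Real.dist_eq, sub_zero, abs_of_nonneg (by positivity), div_lt_iff₀ hx0]
  have h7 : 0 < ε * x := by positivity
  linarith

end P033
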