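import Mathlib

/-!
# P033, module FROB: Frobenius-type automorphisms fix the primes above `q`
-/

namespace P033

open NumberField IsDedekindDomain

variable {n : ℕ} [NeZero n] {K : Type*} [Field K] [NumberField K]
  [IsCyclotomicExtension {n} ℚ K] {ζ : K}

/-- The action of an automorphism on the ring of integers. -/
noncomputable def rI (τ : K ≃ₐ[ℚ] K) : 𝓞 K ≃+* 𝓞 K :=
  RingOfIntegers.mapRingEquiv τ.toRingEquiv

theorem coe_rI (τ : K ≃ₐ[ℚ] K) (x : 𝓞 K) : ((rI τ x : 𝓞 K) : K) = τ (x : K) := by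
  rfl

omit [NumberField K] in
theorem charP_quot {q : ℕ} (hq : q.Prime) (v : HeightOneSpectrum (𝓞 K))
    (hv : (q : 𝓞 K) ∈ v.asIdeal) : CharP (𝓞 K ⧸ v.asIdeal) q := by
  have h0 : ((q : ℕ) : 𝓞 K ⧸ v.asIdeal) = 0 := by
    rw [← map_natCast (Ideal.Quotient.mk v.asIdeal)]
    exact Ideal.Quotient.eq_zero_iff_mem.2 hv
  have : Nontrivial (𝓞 K ⧸ v.asIdeal) :=
    Ideal.Quotient.nontrivial_iff.2 v.isPrime.ne_top
  obtain ⟨p, hp⟩ := CharP.exists (𝓞 K ⧸ v.asIdeal)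
  have h1 : p ∣ q := (CharP.cast_eq_zero_iff _ p q).1 h0
  rcases (Nat.dvd_prime hq).1 h1 with h | h
  · subst h
    exact absurd rfl (CharP.char_ne_one (𝓞 K ⧸ v.asIdeal) 1)
  · subst h
    exact hp

omit [IsCyclotomicExtension {n} ℚ K] in
theorem pow_root_eq (hζ : IsPrimitiveRoot ζ n) {q : ℕ} (hq : q.Prime) {t k : ℕ}
    (ht : t ≡ q ^ k [MOD ordCompl[q] n]) (v : HeightOneSpectrum (𝓞 K))
    (hv : (q : 𝓞 K) ∈ v.asIdeal) :
    (Ideal.Quotient.mk v.asIdeal hζ.toInteger) ^ t =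
      (Ideal.Quotient.mk v.asIdeal hζ.toInteger) ^ (q ^ k) := by
  have := charP_quot hq v hv
  have : Fact q.Prime := ⟨hq⟩
  have : ExpChar (𝓞 K ⧸ v.asIdeal) q := ExpChar.prime hq
  have : IsDomain (𝓞 K ⧸ v.asIdeal) := (Ideal.Quotient.isDomain_iff_prime _).2 v.isPrime
  set z := Ideal.Quotient.mk v.asIdeal hζ.toInteger with hz
  have hn : z ^ n = 1 := by
    rw [hz, ← map_pow, hζ.toInteger_isPrimitiveRoot.pow_eq_one, map_one]
  have h1 : z ^ (ordCompl[q] n) = 1 := by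
    have h2 : (z ^ (ordCompl[q] n)) ^ (q ^ (n.factorization q)) = 1 := by
      rw [← pow_mul, mul_comm, Nat.ordProj_mul_ordCompl_eq_self, hn]
    have h3 : (iterateFrobenius (𝓞 K ⧸ v.asIdeal) q (n.factorization q)) (z ^ (ordCompl[q] n)) =
        (iterateFrobenius (𝓞 K ⧸ v.asIdeal) q (n.factorization q)) 1 := by
      rw [iterateFrobenius_def, h2, map_one]
    exact (iterateFrobenius_inj _ _ _) h3
  exact pow_eq_pow_of_modEq ht h1

theorem rI_sub_pow_mem (hζ : IsPrimitiveRoot ζ n) {q : ℕ} (hq : q.Prime) {t k : ℕ}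
    {τ : K ≃ₐ[ℚ] K} (hτ : τ ζ = ζ ^ t) (ht : t ≡ q ^ k [MOD ordCompl[q] n])
    (v : HeightOneSpectrum (𝓞 K)) (hv : (q : 𝓞 K) ∈ v.asIdeal) (x : 𝓞 K) :
    Ideal.Quotient.mk v.asIdeal (rI τ x) = (Ideal.Quotient.mk v.asIdeal x) ^ (q ^ k) := by
  have := charP_quot hq v hv
  have : Fact q.Prime := ⟨hq⟩
  have : ExpChar (𝓞 K ⧸ v.asIdeal) q := ExpChar.prime hq
  have htop := IsCyclotomicExtension.Rat.adjoin_singleton_eq_top hζ
  let f : 𝓞 K →ₐ[ℤ] 𝓞 K ⧸ v.asIdeal :=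
    ((Ideal.Quotient.mk v.asIdeal).comp (rI τ).toRingHom).toIntAlgHom
  let g : 𝓞 K →ₐ[ℤ] 𝓞 K ⧸ v.asIdeal :=
    ((iterateFrobenius (𝓞 K ⧸ v.asIdeal) q k).comp (Ideal.Quotient.mk v.asIdeal)).toIntAlgHom
  have hfg : f = g := by
    apply AlgHom.ext_of_adjoin_eq_top htop
    intro y hy
    rw [Set.mem_singleton_iff] at hy
    subst hy
    have h1 : rI τ hζ.toInteger = hζ.toInteger ^ t := by
      apply RingOfIntegers.ext
      rw [coe_rI]
      exact hτ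
    show Ideal.Quotient.mk v.asIdeal (rI τ hζ.toInteger) =
      iterateFrobenius (𝓞 K ⧸ v.asIdeal) q k (Ideal.Quotient.mk v.asIdeal hζ.toInteger)
    rw [h1, map_pow, iterateFrobenius_def]
    exact pow_root_eq hζ hq ht v hv
  have h2 := DFunLike.congr_fun hfg x
  have h3 : f x = Ideal.Quotient.mk v.asIdeal (rI τ x) := rfl
  have h4 : g x = iterateFrobenius (𝓞 K ⧸ v.asIdeal) q k (Ideal.Quotient.mk v.asIdeal x) := rfl
  rw [h3, h4, iterateFrobenius_def] at h2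
  exact h2

theorem mem_of_mem (hζ : IsPrimitiveRoot ζ n) {q : ℕ} (hq : q.Prime) {t k : ℕ}
    {τ : K ≃ₐ[ℚ] K} (hτ : τ ζ = ζ ^ t) (ht : t ≡ q ^ k [MOD ordCompl[q] n])
    (v : HeightOneSpectrum (𝓞 K)) (hv : (q : 𝓞 K) ∈ v.asIdeal) {x : 𝓞 K}
    (hx : x ∈ v.asIdeal) : rI τ x ∈ v.asIdeal := by
  rw [← Ideal.Quotient.eq_zero_iff_mem] at hx ⊢
  rw [rI_sub_pow_mem hζ hq hτ ht v hv x, hx, zero_pow (pow_ne_zero k hq.ne_zero)]

theorem mem_pow_of_mem_pow (hζ : IsPrimitiveRoot ζ n) {q : ℕ} (hq : q.Prime) {t k : ℕ}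
    {τ : K ≃ₐ[ℚ] K} (hτ : τ ζ = ζ ^ t) (ht : t ≡ q ^ k [MOD ordCompl[q] n])
    (v : HeightOneSpectrum (𝓞 K)) (hv : (q : 𝓞 K) ∈ v.asIdeal) {x : 𝓞 K} {m : ℕ}
    (hx : x ∈ v.asIdeal ^ m) : rI τ x ∈ v.asIdeal ^ m := by
  have h1 : Ideal.map (rI τ).toRingHom v.asIdeal ≤ v.asIdeal := by
    rw [Ideal.map_le_iff_le_comap]
    intro y hy
    exact mem_of_mem hζ hq hτ ht v hv hy
  have h2 : Ideal.map (rI τ).toRingHom (v.asIdeal ^ m) ≤ v.asIdeal ^ m := by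
    rw [Ideal.map_pow]
    exact Ideal.pow_right_mono h1 m
  exact h2 (Ideal.mem_map_of_mem _ hx)

theorem valuation_rI_le (hζ : IsPrimitiveRoot ζ n) {q : ℕ} (hq : q.Prime) {t k : ℕ}
    {τ : K ≃ₐ[ℚ] K} (hτ : τ ζ = ζ ^ t) (ht : t ≡ q ^ k [MOD ordCompl[q] n])
    (v : HeightOneSpectrum (𝓞 K)) (hv : (q : 𝓞 K) ∈ v.asIdeal) (x : 𝓞 K) :
    v.intValuation (rI τ x) ≤ v.intValuation x := by
  by_cases hx : x = 0
  · subst hx
    simp
  · rw [v.intValuation_if_neg hx, v.intValuation_le_pow_iff_mem]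
    apply mem_pow_of_mem_pow hζ hq hτ ht v hv
    rw [← v.intValuation_le_pow_iff_mem, v.intValuation_if_neg hx]

/-- Let `τ ζ = ζ ^ t` where `t` is a power of the prime `q` modulo the prime-to-`q` part of `n`.
If `q ^ c` divides `β * γ` (in the ring of integers) then `q ^ c` divides `τ β * γ`.

Proof. For a prime ideal `𝔮 ∋ q` of `𝓞 K` and integral `x` one has `τ x ≡ x ^ (q ^ k) mod 𝔮`
(check it on `ζ`: `ζ ^ (t - q^k)` has `q`-power order, hence is `1` mod `𝔮`; integral elements are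
`ℤ`-combinations of powers of `ζ`).  So `τ 𝔮 ⊆ 𝔮`, hence `τ 𝔮 = 𝔮`, `τ (𝔮 ^ j) = 𝔮 ^ j` and
`v_𝔮 (τ x) = v_𝔮 x`.  Now `τ β * γ / q ^ c` has nonnegative valuation at all primes: above `q`
because `v (τ β) = v β`, elsewhere because `v q = 0`. -/
theorem frobDiv (hζ : IsPrimitiveRoot ζ n) {q : ℕ} (hq : q.Prime) {t k : ℕ}
    {τ : K ≃ₐ[ℚ] K} (hτ : τ ζ = ζ ^ t) (ht : t ≡ q ^ k [MOD ordCompl[q] n])
    {β γ : K} (hβ : IsIntegral ℤ β) (hγ : IsIntegral ℤ γ) {c : ℕ}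
    (h : IsIntegral ℤ (β * γ / (q : K) ^ c)) : IsIntegral ℤ (τ β * γ / (q : K) ^ c) := by
  let B : 𝓞 K := ⟨β, hβ⟩
  let Γ : 𝓞 K := ⟨γ, hγ⟩
  let D : 𝓞 K := ⟨_, h⟩
  have hB : ((B : 𝓞 K) : K) = β := rfl
  have hΓ : ((Γ : 𝓞 K) : K) = γ := rfl
  have hD : ((D : 𝓞 K) : K) = β * γ / (q : K) ^ c := rfl
  have hq0 : (q : K) ≠ 0 := Nat.cast_ne_zero.2 hq.ne_zero
  have key : ∀ v : HeightOneSpectrum (𝓞 K),
      v.valuation K (τ β * γ / (q : K) ^ c) ≤ 1 := by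
    intro v
    by_cases hv : (q : 𝓞 K) ∈ v.asIdeal
    · have h1 : v.valuation K (τ β) ≤ v.valuation K β := by
        rw [← hB, ← coe_rI τ B]
        have h2 := valuation_rI_le hζ hq hτ ht v hv B
        rw [← v.valuation_of_algebraMap (K := K), ← v.valuation_of_algebraMap (K := K)] at h2
        exact h2
      have h3 : v.valuation K (β * γ / (q : K) ^ c) ≤ 1 := by
        rw [← hD]
        exact v.valuation_le_one D
      refine le_trans ?_ h3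
      rw [map_div₀, map_div₀, map_mul, map_mul]
      gcongr
      exact zero_le
    · have h1 : v.valuation K (q : K) = 1 := by
        have := (v.valuation_eq_one_iff_notMem (K := K) (r := (q : 𝓞 K))).2 hv
        simpa using this
      rw [map_div₀, map_mul, map_pow, h1, one_pow, div_one]
      have h2 : v.valuation K (τ β) ≤ 1 := by
        rw [← hB, ← coe_rI τ B]
        exact v.valuation_le_one _
      have h3 : v.valuation K γ ≤ 1 := by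
        rw [← hΓ]
        exact v.valuation_le_one _
      exact mul_le_one' h2 h3
  obtain ⟨a, ha⟩ := HeightOneSpectrum.mem_integers_of_valuation_le_one K _ key
  rw [← ha]
  exact a.2

end P033
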