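import Mathlib

/-!
# P033, module GRADE: the grading of `K` by `ZMod P` given by an automorphism of order `P`
-/

namespace P033

open Finset

/-- `σ` is an automorphism with `σ ^ P = 1` fixing the primitive `P`-th root of unity `ω`. -/
structure Grd {K : Type*} [Field K] [Algebra ℚ K] (P : ℕ) (σ : K ≃ₐ[ℚ] K) (ω : K) : Prop where
  hP : P.Prime
  prim : IsPrimitiveRoot ω P
  fix : σ ω = ω
  pow : σ ^ P = 1

/-- Projection to the `ω ^ l`-eigenspace of `σ`. -/
noncomputable def proj {K : Type*} [Field K] [Algebra ℚ K] (P : ℕ) (σ : K ≃ₐ[ℚ] K) (ω : K)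
    (l : ZMod P) (x : K) : K :=
  (P : K)⁻¹ * ∑ i ∈ range P, (ω ^ (i * l.val))⁻¹ * (σ ^ i) x

/-- The support of `x` in the grading. -/
noncomputable def supp {K : Type*} [Field K] [Algebra ℚ K] (P : ℕ) [NeZero P] (σ : K ≃ₐ[ℚ] K)
    (ω : K) (x : K) : Finset (ZMod P) := by
  classical exact Finset.univ.filter fun l => proj P σ ω l x ≠ 0

variable {K : Type*} [Field K] [Algebra ℚ K] {P : ℕ} [NeZero P] {σ : K ≃ₐ[ℚ] K} {ω : K}

theorem mem_supp {l : ZMod P} {x : K} : l ∈ supp P σ ω x ↔ proj P σ ω l x ≠ 0 := by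
  classical
  simp [supp]

theorem Grd.ne_zero (G : Grd P σ ω) : ω ≠ 0 :=
  G.prim.ne_zero G.hP.ne_zero

theorem Grd.cast_ne_zero (G : Grd P σ ω) : (P : K) ≠ 0 := by
  have : CharZero K := algebraRat.charZero K
  exact_mod_cast G.hP.ne_zero

theorem Grd.pow_congr (G : Grd P σ ω) {a b : ℕ} (h : (a : ZMod P) = (b : ZMod P)) :
    ω ^ a = ω ^ b := by
  rw [ZMod.natCast_eq_natCast_iff] at h
  exact pow_eq_pow_of_modEq h G.prim.pow_eq_one

theorem Grd.pow_fix (G : Grd P σ ω) (i : ℕ) : (σ ^ i) ω = ω := by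
  induction i with
  | zero => simp
  | succ n ih => rw [pow_succ, AlgEquiv.mul_apply, G.fix, ih]

theorem Grd.pow_fix_pow (G : Grd P σ ω) (i j : ℕ) : (σ ^ i) (ω ^ j) = ω ^ j := by
  rw [map_pow, G.pow_fix]

theorem Grd.pow_eig (G : Grd P σ ω) {n : ℕ} {x : K} (h : σ x = ω ^ n * x) (i : ℕ) :
    (σ ^ i) x = ω ^ (i * n) * x := by
  induction i with
  | zero => simp
  | succ k ih =>
      rw [pow_succ, AlgEquiv.mul_apply, h, map_mul, G.pow_fix_pow, ih, Nat.succ_mul, pow_add]
      ring

/-- Geometric sums of a nontrivial `P`-th root of unity vanish. -/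
theorem geom_zero {r : K} {P : ℕ} (hr : r ^ P = 1) (h1 : r ≠ 1) :
    ∑ i ∈ range P, r ^ i = 0 := by
  have h := mul_geom_sum r P
  rw [hr, sub_self] at h
  rcases mul_eq_zero.mp h with h | h
  · exact absurd (sub_eq_zero.mp h) h1
  · exact h

theorem proj_add (l : ZMod P) (x y : K) :
    proj P σ ω l (x + y) = proj P σ ω l x + proj P σ ω l y := by
  unfold proj
  rw [← mul_add, ← sum_add_distrib]
  congr 1
  refine sum_congr rfl fun i _ => ?_
  rw [map_add, mul_add]

theorem proj_zero (l : ZMod P) : proj P σ ω l (0 : K) = 0 := by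
  unfold proj
  simp

theorem proj_sum {ι : Type*} (s : Finset ι) (l : ZMod P) (f : ι → K) :
    proj P σ ω l (∑ i ∈ s, f i) = ∑ i ∈ s, proj P σ ω l (f i) := by
  classical
  induction s using Finset.induction_on with
  | empty => simp [proj_zero]
  | insert a s ha ih => rw [sum_insert ha, sum_insert ha, proj_add, ih]

theorem proj_zmul (l : ZMod P) (a : ℤ) (x : K) :
    proj P σ ω l ((a : K) * x) = (a : K) * proj P σ ω l x := by
  unfold proj
  rw [mul_left_comm (a : K), mul_sum (range P) _ (a : K)]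
  congr 1
  refine sum_congr rfl fun i _ => ?_
  rw [map_mul, map_intCast]
  ring

/-- `proj l x` is an eigenvector of `σ`. -/
theorem proj_eig (G : Grd P σ ω) (l : ZMod P) (x : K) :
    σ (proj P σ ω l x) = ω ^ l.val * proj P σ ω l x := by
  have hω := G.ne_zero
  set f : ℕ → K := fun i => (ω ^ (i * l.val))⁻¹ * (σ ^ i) x with hf
  have hper : f P = f 0 := by
    simp only [hf]
    rw [G.pow, pow_mul, G.prim.pow_eq_one]
    simp
  have hshift : ∑ i ∈ range P, f (i + 1) = ∑ i ∈ range P, f i := by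
    have h1 := sum_range_succ f P
    have h2 := sum_range_succ' f P
    rw [h1, hper] at h2
    exact (add_right_cancel h2).symm
  have hproj : proj P σ ω l x = (P : K)⁻¹ * ∑ i ∈ range P, f i := rfl
  rw [hproj, map_mul, map_sum, map_inv₀, map_natCast]
  have hterm : ∀ i ∈ range P, σ (f i) = ω ^ l.val * f (i + 1) := by
    intro i _
    simp only [hf]
    rw [map_mul, map_inv₀, map_pow, G.fix, pow_succ' σ i, AlgEquiv.mul_apply, Nat.succ_mul,
      pow_add]
    field_simp
  rw [sum_congr rfl hterm, ← mul_sum, hshift]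
  ring

theorem sum_proj (G : Grd P σ ω) (x : K) : ∑ l : ZMod P, proj P σ ω l x = x := by
  have hω := G.ne_zero
  have hP0 := G.cast_ne_zero
  have hgeo : ∀ i ∈ range P, ∑ l : ZMod P, (ω ^ (i * l.val))⁻¹ = if i = 0 then (P : K) else 0 := by
    intro i hi
    split_ifs with h0
    · subst h0
      simp [ZMod.card]
    · have hconv : ∑ l : ZMod P, (ω ^ (i * l.val))⁻¹ = ∑ j ∈ range P, ((ω ^ i)⁻¹) ^ j := by
        refine sum_bij (fun (l : ZMod P) _ => l.val) ?_ ?_ ?_ ?_
        · intro l _
          exact mem_range.mpr (ZMod.val_lt l)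
        · intro a _ b _ hab
          exact ZMod.val_injective P hab
        · intro j hj
          refine ⟨(j : ZMod P), mem_univ _, ?_⟩
          exact ZMod.val_natCast_of_lt (mem_range.mp hj)
        · intro l _
          rw [inv_pow, ← pow_mul]
      rw [hconv]
      apply geom_zero
      · rw [inv_pow, ← pow_mul, mul_comm, pow_mul, G.prim.pow_eq_one, one_pow, inv_one]
      · intro h
        rw [inv_eq_one] at h
        have hdvd := (G.prim.pow_eq_one_iff_dvd i).mp h
        exact absurd (Nat.le_of_dvd (Nat.pos_of_ne_zero h0) hdvd)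
          (not_le.mpr (mem_range.mp hi))
  unfold proj
  rw [← mul_sum, sum_comm]
  have h2 : ∀ i ∈ range P, ∑ l : ZMod P, (ω ^ (i * l.val))⁻¹ * (σ ^ i) x
      = if i = 0 then (P : K) * x else 0 := by
    intro i hi
    rw [← sum_mul, hgeo i hi]
    split_ifs with h0
    · subst h0
      simp
    · simp
  rw [sum_congr rfl h2, sum_ite_eq' (range P) 0 (fun _ => (P : K) * x),
    if_pos (mem_range.mpr G.hP.pos)]
  field_simp

theorem proj_of_eig (G : Grd P σ ω) {l : ZMod P} {x : K} (h : σ x = ω ^ l.val * x) :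
    proj P σ ω l x = x := by
  have hω := G.ne_zero
  have hP0 := G.cast_ne_zero
  unfold proj
  have hterm : ∀ i ∈ range P, (ω ^ (i * l.val))⁻¹ * (σ ^ i) x = x := by
    intro i _
    rw [G.pow_eig h i, inv_mul_cancel_left₀ (pow_ne_zero _ hω)]
  rw [sum_congr rfl hterm, sum_const, card_range, nsmul_eq_mul, inv_mul_cancel_left₀ hP0]

theorem proj_of_eig_ne (G : Grd P σ ω) {l l' : ZMod P} {x : K} (h : σ x = ω ^ l.val * x)
    (hne : l' ≠ l) : proj P σ ω l' x = 0 := by
  have hω := G.ne_zero
  unfold proj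
  have hterm : ∀ i ∈ range P, (ω ^ (i * l'.val))⁻¹ * (σ ^ i) x
      = ((ω ^ l'.val)⁻¹ * ω ^ l.val) ^ i * x := by
    intro i _
    rw [G.pow_eig h i, mul_pow, inv_pow, ← pow_mul, ← pow_mul, mul_comm l'.val i,
      mul_comm l.val i, mul_assoc]
  rw [sum_congr rfl hterm, ← sum_mul, geom_zero, zero_mul, mul_zero]
  · rw [mul_pow, inv_pow, ← pow_mul, ← pow_mul, mul_comm l'.val, mul_comm l.val, pow_mul,
      pow_mul, G.prim.pow_eq_one]
    simp
  · intro h1
    have h2 : ω ^ l.val = ω ^ l'.val := by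
      have := congrArg (fun z => ω ^ l'.val * z) h1
      beta_reduce at this
      rw [mul_inv_cancel_left₀ (pow_ne_zero _ hω), mul_one] at this
      exact this
    have h3 := G.prim.pow_inj (ZMod.val_lt l) (ZMod.val_lt l') h2
    exact hne (ZMod.val_injective P h3).symm

/-- The product of two eigenvectors. -/
theorem eig_mul (G : Grd P σ ω) {l m : ZMod P} {x y : K} (hx : σ x = ω ^ l.val * x)
    (hy : σ y = ω ^ m.val * y) : σ (x * y) = ω ^ (l + m).val * (x * y) := by
  rw [map_mul, hx, hy]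
  have : ω ^ (l + m).val = ω ^ (l.val + m.val) := by
    apply G.pow_congr
    simp
  rw [this, pow_add]
  ring

theorem card_supp_mul_le (G : Grd P σ ω) (x y : K) :
    (supp P σ ω (x * y)).card ≤ (supp P σ ω x).card * (supp P σ ω y).card := by
  classical
  have hsub : supp P σ ω (x * y) ⊆
      (supp P σ ω x ×ˢ supp P σ ω y).image (fun p : ZMod P × ZMod P => p.1 + p.2) := by
    intro n hn
    rw [mem_supp] at hn
    by_contra hcon
    apply hn
    have hxy : x * y = ∑ l : ZMod P, ∑ m : ZMod P, proj P σ ω l x * proj P σ ω m y := by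
      rw [← sum_mul_sum, sum_proj G, sum_proj G]
    rw [hxy, proj_sum]
    refine sum_eq_zero fun l _ => ?_
    rw [proj_sum]
    refine sum_eq_zero fun m _ => ?_
    by_cases hl : proj P σ ω l x = 0
    · rw [hl, zero_mul, proj_zero]
    by_cases hm : proj P σ ω m y = 0
    · rw [hm, mul_zero, proj_zero]
    apply proj_of_eig_ne G (eig_mul G (proj_eig G l x) (proj_eig G m y))
    intro hnlm
    apply hcon
    rw [mem_image]
    exact ⟨(l, m), mem_product.mpr ⟨mem_supp.mpr hl, mem_supp.mpr hm⟩, hnlm.symm⟩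
  calc (supp P σ ω (x * y)).card ≤ _ := card_le_card hsub
    _ ≤ (supp P σ ω x ×ˢ supp P σ ω y).card := card_image_le
    _ = _ := card_product _ _

/-- An automorphism commuting with `σ` with `τ ω = ω ^ t` multiplies the support by `t`. -/
theorem supp_aut (G : Grd P σ ω) {τ : K ≃ₐ[ℚ] K} (hc : σ * τ = τ * σ) {t : ℕ}
    (hτ : τ ω = ω ^ t) (x : K) :
    supp P σ ω (τ x) = (supp P σ ω x).image (fun l => (t : ZMod P) * l) := by
  classical
  have : Fact P.Prime := ⟨G.hP⟩
  have hω := G.ne_zero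
  have hcomm : ∀ i : ℕ, ∀ z : K, (σ ^ i) (τ z) = τ ((σ ^ i) z) := by
    intro i z
    have h : Commute (σ ^ i) τ := Commute.pow_left hc i
    have := congrArg (fun e : K ≃ₐ[ℚ] K => e z) h.eq
    simpa [AlgEquiv.mul_apply] using this
  have hkey : ∀ l : ZMod P, proj P σ ω ((t : ZMod P) * l) (τ x) = τ (proj P σ ω l x) := by
    intro l
    unfold proj
    rw [map_mul, map_inv₀, map_natCast, map_sum]
    congr 1
    refine sum_congr rfl fun i _ => ?_
    rw [map_mul, map_inv₀, map_pow, hτ, hcomm]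
    congr 2
    rw [← pow_mul]
    apply G.pow_congr
    push_cast
    rw [ZMod.natCast_val, ZMod.natCast_val, ZMod.cast_id, ZMod.cast_id]
    ring
  have ht : (t : ZMod P) ≠ 0 := by
    intro h0
    rw [ZMod.natCast_eq_zero_iff] at h0
    have h1 : ω ^ t = 1 := (G.prim.pow_eq_one_iff_dvd t).mpr h0
    rw [h1] at hτ
    have h2 : ω = 1 := by
      apply τ.injective
      rw [hτ, map_one]
    exact G.prim.ne_one G.hP.one_lt h2
  ext m
  rw [mem_image, mem_supp]
  constructor
  · intro hm
    refine ⟨(t : ZMod P)⁻¹ * m, ?_, ?_⟩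
    · rw [mem_supp]
      intro h0
      apply hm
      have := hkey ((t : ZMod P)⁻¹ * m)
      rw [mul_inv_cancel_left₀ ht, h0, map_zero] at this
      exact this
    · exact mul_inv_cancel_left₀ ht m
  · rintro ⟨l, hl, rfl⟩
    rw [hkey]
    rw [mem_supp] at hl
    exact fun h => hl ((map_eq_zero τ).mp h)

/-- Multiplication by a nonzero eigenvector translates the support. -/
theorem supp_eig_mul (G : Grd P σ ω) {g : K} (hg0 : g ≠ 0) {c : ZMod P}
    (hg : σ g = ω ^ c.val * g) (x : K) :
    supp P σ ω (g * x) = (supp P σ ω x).image (fun l => c + l) := by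
  classical
  have hω := G.ne_zero
  have hkey : ∀ l : ZMod P, proj P σ ω (c + l) (g * x) = g * proj P σ ω l x := by
    intro l
    unfold proj
    rw [mul_left_comm g, mul_sum (range P) _ g]
    congr 1
    refine sum_congr rfl fun i _ => ?_
    rw [map_mul, G.pow_eig hg i]
    have h1 : ω ^ (i * (c + l).val) = ω ^ (i * c.val) * ω ^ (i * l.val) := by
      rw [← pow_add]
      apply G.pow_congr
      push_cast
      simp only [ZMod.natCast_val, ZMod.cast_id', id_eq]
      ring
    rw [h1, mul_inv]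
    have h2 : (ω ^ (i * c.val)) ≠ 0 := pow_ne_zero _ hω
    field_simp
  ext m
  rw [mem_image, mem_supp]
  constructor
  · intro hm
    refine ⟨m - c, ?_, by ring⟩
    rw [mem_supp]
    intro h0
    apply hm
    have := hkey (m - c)
    rw [h0, mul_zero, add_sub_cancel] at this
    exact this
  · rintro ⟨l, hl, rfl⟩
    rw [hkey]
    rw [mem_supp] at hl
    exact mul_ne_zero hg0 hl

theorem supp_nonempty (G : Grd P σ ω) {x : K} (hx : x ≠ 0) : (supp P σ ω x).Nonempty := by
  by_contra h
  rw [not_nonempty_iff_eq_empty] at h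
  apply hx
  rw [← sum_proj G x]
  refine sum_eq_zero fun l _ => ?_
  by_contra hl
  have : l ∈ supp P σ ω x := mem_supp.mpr hl
  rw [h] at this
  exact absurd this (notMem_empty l)

theorem eig_of_card_one (G : Grd P σ ω) {x : K} (h : (supp P σ ω x).card = 1) :
    ∃ l : ZMod P, σ x = ω ^ l.val * x := by
  classical
  obtain ⟨l, hl⟩ := card_eq_one.mp h
  refine ⟨l, ?_⟩
  have hx : proj P σ ω l x = x := by
    conv_rhs => rw [← sum_proj G x]
    symm
    refine sum_eq_single l (fun m _ hm => ?_) (fun h => absurd (mem_univ l) h)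
    by_contra h0
    have : m ∈ supp P σ ω x := mem_supp.mpr h0
    rw [hl, mem_singleton] at this
    exact hm this
  rw [← hx]
  exact proj_eig G l x

theorem card_one_of_eig (G : Grd P σ ω) {x : K} (hx : x ≠ 0) {l : ZMod P}
    (h : σ x = ω ^ l.val * x) : (supp P σ ω x).card = 1 := by
  classical
  rw [card_eq_one]
  refine ⟨l, ?_⟩
  ext m
  rw [mem_supp, mem_singleton]
  constructor
  · intro hm
    by_contra hne
    exact hm (proj_of_eig_ne G h hne)
  · rintro rfl
    rw [proj_of_eig G h]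
    exact hx

end P033
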