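import Vale.Agent.P033.Root
import Vale.Agent.P033.Frob
import Vale.Agent.P033.Grade
import Vale.Agent.P033.Affine

/-!
# P033, module ITER: iterated Frobenius twists
-/

namespace P033

open Finset

variable {n : ℕ} [NeZero n] {K : Type*} [Field K] [NumberField K]
  [IsCyclotomicExtension {n} ℚ K] {ζ : K}

/-- The twisting automorphism for the prime `q`. -/
theorem exists_twist (hζ : IsPrimitiveRoot ζ n) {P : ℕ} (hP : P.Prime) (hPn : P ∣ n) {q : ℕ}
    (hq : q.Prime) (hqP : q ≠ P) {ω : K} (hω : ω = ζ ^ (n / P)) :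
    ∃ (t : ℕ) (τ : K ≃ₐ[ℚ] K), τ ζ = ζ ^ t ∧ t ≡ q ^ 1 [MOD ordCompl[q] n] ∧
      τ ω = ω ^ q := by
  have hn0 : n ≠ 0 := NeZero.ne n
  have hqc : q.Coprime (ordCompl[q] n) := Nat.coprime_ordCompl hq hn0
  have hco : (ordCompl[q] n).Coprime (ordProj[q] n) := (hqc.pow_left _).symm
  obtain ⟨t, ht1, ht2⟩ := Nat.chineseRemainder hco q 1
  have hc1 : t.Coprime (ordCompl[q] n) := by
    have := ht1.gcd_eq
    rw [Nat.Coprime, this]
    exact hqc
  have hc2 : t.Coprime (ordProj[q] n) := by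
    have := ht2.gcd_eq
    rw [Nat.Coprime, this]
    exact Nat.gcd_one_left _
  have hcn : t.Coprime n := by
    rw [← Nat.ordProj_mul_ordCompl_eq_self n q]
    exact Nat.Coprime.mul_right hc2 hc1
  obtain ⟨τ, hτ⟩ := exists_aut hζ hcn
  refine ⟨t, τ, hτ, by simpa using ht1, ?_⟩
  have hPc : P ∣ ordCompl[q] n := by
    have h1 : P.Coprime (ordProj[q] n) :=
      ((Nat.coprime_primes hP hq).2 (Ne.symm hqP)).pow_right _
    have h2 : P ∣ ordProj[q] n * ordCompl[q] n := by
      rw [Nat.ordProj_mul_ordCompl_eq_self]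
      exact hPn
    exact h1.dvd_of_dvd_mul_left h2
  have h3 : t ≡ q [MOD P] := ht1.of_dvd hPc
  have hωP : ω ^ P = 1 := by
    rw [hω, ← pow_mul, Nat.div_mul_cancel hPn, hζ.pow_eq_one]
  calc τ ω = (τ ζ) ^ (n / P) := by rw [hω, map_pow]
    _ = ω ^ t := by rw [hτ, hω, ← pow_mul, ← pow_mul, mul_comm]
    _ = ω ^ q := pow_eq_pow_of_modEq h3 hωP

omit [NeZero n] [NumberField K] [IsCyclotomicExtension {n} ℚ K] in
theorem isIntegral_aut [NumberField K] (τ : K ≃ₐ[ℚ] K) {x : K} (hx : IsIntegral ℤ x) :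
    IsIntegral ℤ (τ x) := map_isIntegral_int τ.toAlgHom.toRingHom hx

/-- One twisting step: if `(q ^ a * m) * w` is integral (`w` unitary) then `m ^ 2 * (τ w / w)` is
integral. -/
theorem twist_step (hζ : IsPrimitiveRoot ζ n) {c : K ≃ₐ[ℚ] K} (hc : c ζ = ζ⁻¹) {q : ℕ}
    (hq : q.Prime) {t : ℕ} {τ : K ≃ₐ[ℚ] K} (hτ : τ ζ = ζ ^ t)
    (ht : t ≡ q ^ 1 [MOD ordCompl[q] n]) {w : K} (hw : w * c w = 1) {a m : ℕ} (hm : m ≠ 0)
    (hint : IsIntegral ℤ (((q ^ a * m : ℕ) : K) * w)) :
    IsIntegral ℤ (((m ^ 2 : ℕ) : K) * (τ w * c w)) := by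
  have hq0 : (q : K) ≠ 0 := Nat.cast_ne_zero.2 hq.ne_zero
  have h1 : IsIntegral ℤ ((((q ^ a * m : ℕ) : K) * w) * c (((q ^ a * m : ℕ) : K) * w) /
      (q : K) ^ (2 * a)) := by
    have h2 : (((q ^ a * m : ℕ) : K) * w) * c (((q ^ a * m : ℕ) : K) * w) / (q : K) ^ (2 * a) =
        ((m ^ 2 : ℕ) : K) := by
      rw [map_mul, map_natCast]
      have : (((q ^ a * m : ℕ) : K) * w) * (((q ^ a * m : ℕ) : K) * c w) =
          ((q ^ a * m : ℕ) : K) ^ 2 * (w * c w) := by ring
      rw [this, hw, mul_one]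
      push_cast
      field_simp
      ring
    rw [h2]
    exact isIntegral_algebraMap (R := ℤ) (A := K) (x := ((m ^ 2 : ℕ) : ℤ)) |> fun h => by
      simpa using h
  have h3 := frobDiv hζ hq hτ ht hint (isIntegral_aut c hint) h1
  have h4 : τ (((q ^ a * m : ℕ) : K) * w) * c (((q ^ a * m : ℕ) : K) * w) / (q : K) ^ (2 * a) =
      ((m ^ 2 : ℕ) : K) * (τ w * c w) := by
    rw [map_mul, map_mul, map_natCast, map_natCast]
    push_cast
    field_simp
    ring
  rw [h4] at h3
  exact h3

/-- Main induction.  `w` is unitary, `m * w` is integral with `m` composed of primes in `L`, and the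
support of `w` is so small that `|supp w| ^ (2 ^ |L|) < ord_P q` for all `q ∈ L`; then the support
is a single point. -/
theorem iter (hζ : IsPrimitiveRoot ζ n) (hn : Even n) {c : K ≃ₐ[ℚ] K} (hc : c ζ = ζ⁻¹)
    {P : ℕ} [NeZero P] (hPn : P ∣ n) {σ : K ≃ₐ[ℚ] K} {ω : K} (G : Grd P σ ω)
    (hω : ω = ζ ^ (n / P)) (hσ : σ ζ = ω * ζ)
    (L : List ℕ) (hL : ∀ q ∈ L, q.Prime) (hnd : L.Nodup) (w : K) (hw : w * c w = 1)
    (m : ℕ) (hm0 : m ≠ 0) (hm : ∀ p, p.Prime → p ∣ m → p ∈ L)
    (hint : IsIntegral ℤ ((m : K) * w))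
    (hcard : ∀ q ∈ L, (supp P σ ω w).card ^ (2 ^ L.length) < orderOf (q : ZMod P)) :
    (supp P σ ω w).card = 1 := by
  have hPf : Fact P.Prime := ⟨G.hP⟩
  have hcc : ∀ x : K, c (c x) = x := by
    have h1 : c * c = 1 := by
      apply aut_ext hζ
      show c (c ζ) = ζ
      rw [hc, map_inv₀, hc, inv_inv]
    intro x
    have := DFunLike.congr_fun h1 x
    simpa using this
  have hcω : c ω = ω ^ (P - 1) := by
    have h1 : c ω = ω⁻¹ := by
      rw [hω, map_pow, hc, inv_pow]
    rw [h1]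
    have h2 : ω ^ (P - 1) * ω = 1 := by
      rw [← pow_succ, Nat.sub_add_cancel G.hP.one_le, G.prim.pow_eq_one]
    exact (eq_inv_of_mul_eq_one_left h2).symm
  induction L generalizing w m with
  | nil =>
    have hm1 : m = 1 := by
      by_contra hne
      obtain ⟨p, hp, hpm⟩ := Nat.exists_prime_and_dvd hne
      exact absurd (hm p hp hpm) (by simp)
    subst hm1
    rw [Nat.cast_one, one_mul] at hint
    obtain ⟨a, ha⟩ := unitary_integral hζ hn hc hint hw
    have hw0 : w ≠ 0 := by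
      rintro rfl
      simp at hw
    apply card_one_of_eig G hw0 (l := (a : ZMod P))
    rw [ZMod.val_natCast, ha, map_pow, hσ, mul_pow]
    congr 1
    exact (pow_eq_pow_of_modEq (Nat.mod_modEq a P) G.prim.pow_eq_one).symm
  | cons q L' ih =>
    have hq : q.Prime := hL q (by simp)
    have hord := hcard q (by simp)
    have hw0 : w ≠ 0 := by
      rintro rfl
      simp at hw
    have hqP : q ≠ P := by
      rintro rfl
      have h0 : orderOf ((q : ℕ) : ZMod q) = 0 := by
        rw [ZMod.natCast_self, orderOf_eq_zero_iff]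
        intro hfin
        obtain ⟨k, hk, hk1⟩ := hfin.exists_pow_eq_one
        rw [zero_pow hk.ne'] at hk1
        exact zero_ne_one hk1
      omega
    obtain ⟨t, τ, hτ, ht, hτω⟩ := exists_twist hζ G.hP hPn hq hqP hω
    have hcomm : ∀ (x : K), c (τ x) = τ (c x) := by
      intro x
      have := DFunLike.congr_fun (aut_comm hζ c τ) x
      simpa using this
    set w' := τ w * c w with hw'
    have hm' : IsIntegral ℤ ((((ordCompl[q] m) ^ 2 : ℕ) : K) * w') := by
      apply twist_step hζ hc hq hτ ht hw (a := m.factorization q)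
      · exact (Nat.ordCompl_pos q hm0).ne'
      · rw [Nat.ordProj_mul_ordCompl_eq_self]
        exact hint
    have hw'1 : w' * c w' = 1 := by
      rw [hw', map_mul, hcc, hcomm]
      calc τ w * c w * (τ (c w) * w) = τ (w * c w) * (w * c w) := by
            rw [map_mul]; ring
        _ = 1 := by rw [hw]; simp
    have hw'0 : w' ≠ 0 := by
      intro h0
      rw [h0] at hw'1
      simp at hw'1
    have hcardτ : supp P σ ω (τ w) = (supp P σ ω w).image (fun l => ((q : ℕ) : ZMod P) * l) :=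
      supp_aut G (aut_comm hζ σ τ) hτω w
    have hcardc : supp P σ ω (c w) =
        (supp P σ ω w).image (fun l => ((P - 1 : ℕ) : ZMod P) * l) :=
      supp_aut G (aut_comm hζ σ c) hcω w
    have hcard' : (supp P σ ω w').card ≤ (supp P σ ω w).card ^ 2 := by
      refine (card_supp_mul_le G _ _).trans ?_
      rw [pow_two, hcardτ, hcardc]
      exact Nat.mul_le_mul card_image_le card_image_le
    have hone : (supp P σ ω w').card = 1 := by
      apply ih (fun p hp => hL p (List.mem_cons_of_mem _ hp)) (List.nodup_cons.1 hnd).2 w' hw'1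
        ((ordCompl[q] m) ^ 2) (pow_ne_zero _ (Nat.ordCompl_pos q hm0).ne') ?_ hm' ?_
      · intro p hp hpm
        have h1 : p ∣ ordCompl[q] m := hp.dvd_of_dvd_pow hpm
        have h2 : p ∣ m := h1.trans (Nat.ordCompl_dvd m q)
        rcases List.mem_cons.1 (hm p hp h2) with h3 | h3
        · subst h3
          exact absurd h1 (Nat.not_dvd_ordCompl hp hm0)
        · exact h3
      · intro p hp
        have h1 := hcard p (List.mem_cons_of_mem _ hp)
        refine lt_of_le_of_lt ?_ h1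
        calc (supp P σ ω w').card ^ (2 ^ L'.length)
            ≤ ((supp P σ ω w).card ^ 2) ^ (2 ^ L'.length) := Nat.pow_le_pow_left hcard' _
          _ = (supp P σ ω w).card ^ (2 ^ (q :: L').length) := by
            rw [← pow_mul, List.length_cons, pow_succ, mul_comm]
    obtain ⟨e, he⟩ := eig_of_card_one G hone
    have hτw : τ w = w' * w := by
      rw [hw']
      calc τ w = τ w * (w * c w) := by rw [hw, mul_one]
        _ = τ w * c w * w := by ring
    have hS : (supp P σ ω w).image (fun l => ((q : ℕ) : ZMod P) * l) =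
        (supp P σ ω w).image (fun l => e + l) := by
      rw [← hcardτ, hτw, supp_eig_mul G hw'0 he]
    apply affine_card (supp P σ ω w) (supp_nonempty G hw0) _ _ hS
    refine lt_of_le_of_lt ?_ hord
    exact Nat.le_self_pow (pow_ne_zero _ two_ne_zero) _

end P033
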