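import Mathlib
import Vale.Agent.P001.Mertens

/-!
# P033, module MERTENS
-/

namespace P033

open Finset

theorem filter_prime_eq_primesLE (m : ℕ) :
    (range (m + 1)).filter Nat.Prime = Nat.primesLE m := by
  ext q
  rw [Nat.mem_primesLE, mem_filter, mem_range, Nat.lt_succ_iff]

/-- Mertens' first theorem, upper bound.  `log m! ≤ m log m`, `v_q(m!) ≥ ⌊m/q⌋ ≥ m/q - 1` and
`∑_{q ≤ m} log q ≤ m log 4` (`primorial_le_four_pow`). -/
theorem sum_log_div {m : ℕ} (hm : 1 ≤ m) :
    ∑ q ∈ (range (m + 1)).filter Nat.Prime, Real.log q / q ≤ Real.log m + Real.log 4 := by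
  rw [filter_prime_eq_primesLE]
  exact Vale.Agent.P001.mertens_upper m hm

theorem sum_log_div_sub {m : ℕ} (hm : 1 ≤ m) :
    ∑ q ∈ (range (m + 1)).filter Nat.Prime, Real.log q / (q - 1) ≤
      2 * Real.log m + 2 * Real.log 4 := by
  have h : ∑ q ∈ (range (m + 1)).filter Nat.Prime, Real.log q / ((q : ℝ) - 1) ≤
      ∑ q ∈ (range (m + 1)).filter Nat.Prime, 2 * (Real.log q / q) := by
    refine sum_le_sum fun q hq => ?_
    have h2 : (2 : ℝ) ≤ q := by exact_mod_cast (mem_filter.mp hq).2.two_le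
    have h3 : 0 ≤ Real.log q := Real.log_natCast_nonneg q
    rw [← mul_div_assoc, div_le_div_iff₀ (by linarith) (by linarith)]
    nlinarith
  rw [← mul_sum] at h
  have := sum_log_div hm
  linarith

/-- `∑_{q ≤ b} 1/q = o(log b)`: split at `z` with `log z` large. -/
theorem sum_inv_small {ε : ℝ} (hε : 0 < ε) : ∃ b₀ : ℕ, ∀ b ≥ b₀,
    ∑ q ∈ (range (b + 1)).filter Nat.Prime, (1 : ℝ) / q ≤ ε * Real.log b := by
  obtain ⟨z, hz⟩ := exists_nat_ge (Real.exp (2 / ε))
  have hz0 : (0 : ℝ) < z := (Real.exp_pos _).trans_le hz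
  have hlz : 2 / ε ≤ Real.log z := by
    rw [Real.le_log_iff_exp_le hz0]
    exact hz
  have hlz0 : 0 < Real.log z := lt_of_lt_of_le (by positivity) hlz
  obtain ⟨b₀, hb₀⟩ := exists_nat_ge (Real.exp ((2 * z + Real.log 4 * ε) / ε))
  refine ⟨b₀ + 1, fun b hb => ?_⟩
  have hb1 : 1 ≤ b := by omega
  have hbR : (0 : ℝ) < b := by exact_mod_cast hb1
  have hlb : (2 * z + Real.log 4 * ε) / ε ≤ Real.log b := by
    rw [Real.le_log_iff_exp_le hbR]
    refine hb₀.trans ?_
    exact_mod_cast (by omega : b₀ ≤ b)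
  have hlb' : 2 * z + Real.log 4 * ε ≤ ε * Real.log b := by
    rw [div_le_iff₀ hε] at hlb
    linarith
  have hterm : ∀ q ∈ (range (b + 1)).filter Nat.Prime, (1 : ℝ) / q ≤
      (if q ≤ z then 1 else 0) + (Real.log q / q) / Real.log z := by
    intro q hq
    have h2 : (2 : ℝ) ≤ q := by exact_mod_cast (mem_filter.mp hq).2.two_le
    have h3 : 0 ≤ Real.log q := Real.log_natCast_nonneg q
    by_cases hqz : q ≤ z
    · rw [if_pos hqz]
      have h4 : (1 : ℝ) / q ≤ 1 := by
        rw [div_le_one (by linarith)]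
        linarith
      have h5 : 0 ≤ (Real.log q / q) / Real.log z := by positivity
      linarith
    · rw [if_neg hqz, zero_add]
      have h6 : Real.log z ≤ Real.log q := by
        apply Real.log_le_log hz0
        exact_mod_cast (not_le.mp hqz).le
      rw [div_div, div_le_div_iff₀ (by linarith) (by positivity)]
      nlinarith
  refine (sum_le_sum hterm).trans ?_
  rw [sum_add_distrib, ← sum_div]
  have h7 : ∑ q ∈ (range (b + 1)).filter Nat.Prime, (if q ≤ z then (1 : ℝ) else 0) ≤ z := by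
    rw [← sum_filter, sum_const, nsmul_eq_mul, mul_one]
    have h8 : (((range (b + 1)).filter Nat.Prime).filter (fun q => q ≤ z)).card ≤
        (Icc 1 z).card := by
      apply card_le_card
      intro q hq
      rw [mem_filter, mem_filter] at hq
      rw [mem_Icc]
      exact ⟨hq.1.2.one_le, hq.2⟩
    rw [Nat.card_Icc, Nat.add_sub_cancel] at h8
    exact_mod_cast h8
  have h9 := sum_log_div hb1
  have hl4 : 0 ≤ Real.log 4 := Real.log_nonneg (by norm_num)
  have hlb0 : 0 ≤ Real.log b := Real.log_natCast_nonneg b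
  have h10 : (∑ q ∈ (range (b + 1)).filter Nat.Prime, Real.log q / q) / Real.log z ≤
      (ε / 2) * (Real.log b + Real.log 4) := by
    rw [div_le_iff₀ hlz0]
    have h11 : 1 ≤ (ε / 2) * Real.log z := by
      rw [div_le_iff₀ hε] at hlz
      linarith
    nlinarith [mul_le_mul_of_nonneg_left h11 (by linarith : 0 ≤ Real.log b + Real.log 4)]
  nlinarith

end P033
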