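import Mathlib

/-!
# P033, module ORDFEW: few primes have a small base of small order
-/

namespace P033

open Finset

theorem OrdFew.card_primeFactors_pow_sub {q d : ℕ} (hq : 2 ≤ q) (hd : 1 ≤ d) :
    (q ^ d - 1).primeFactors.card ≤ q * d := by
  have hpos : 0 < q ^ d - 1 := by
    have : 2 ≤ q ^ d := hq.trans (Nat.le_self_pow (by omega) q)
    omega
  have h1 : 2 ^ (q ^ d - 1).primeFactors.card ≤ ∏ p ∈ (q ^ d - 1).primeFactors, p := by
    rw [← prod_const]
    apply prod_le_prod'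
    intro p hp
    exact (Nat.prime_of_mem_primeFactors hp).two_le
  have h2 := h1.trans (Nat.le_of_dvd hpos (Nat.prod_primeFactors_dvd _))
  have h3 : q ^ d ≤ 2 ^ (q * d) := by
    rw [pow_mul]
    exact Nat.pow_le_pow_left (Nat.lt_two_pow_self).le d
  exact (Nat.pow_le_pow_iff_right (by norm_num : 1 < 2)).mp (h2.trans ((Nat.sub_le _ _).trans h3))

/-- A prime `P` such that some prime `q ≤ b`, `q ≠ P`, has order `≤ T` mod `P` divides
`q ^ d - 1 < b ^ T` for some `q ≤ b`, `1 ≤ d ≤ T`; a positive integer `m` has at most `log₂ m` prime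
factors. -/
theorem ord_few {b T : ℕ} (S : Finset ℕ)
    (hS : ∀ P ∈ S, P.Prime ∧ ∃ q ≤ b, q.Prime ∧ q ≠ P ∧ orderOf (q : ZMod P) ≤ T) :
    S.card ≤ b ^ 2 * T ^ 2 := by
  have hsub : S ⊆ ((Icc 1 b).filter (fun q => 2 ≤ q)).biUnion
      (fun q => (Icc 1 T).biUnion fun d => (q ^ d - 1).primeFactors) := by
    intro P hP
    obtain ⟨hPp, q, hqb, hq, hqP, hord⟩ := hS P hP
    haveI : Fact P.Prime := ⟨hPp⟩
    simp only [mem_biUnion, mem_filter, mem_Icc]
    have hu : (q : ZMod P) ≠ 0 := by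
      intro h
      rw [ZMod.natCast_eq_zero_iff] at h
      exact hqP ((Nat.prime_dvd_prime_iff_eq hPp hq).mp h).symm
    have hpos : 0 < orderOf (q : ZMod P) := by
      rw [orderOf_pos_iff, isOfFinOrder_iff_pow_eq_one]
      refine ⟨P - 1, ?_, ZMod.pow_card_sub_one_eq_one hu⟩
      have := hPp.two_le
      omega
    refine ⟨q, ⟨⟨hq.one_le, hqb⟩, hq.two_le⟩, orderOf (q : ZMod P), ⟨hpos, hord⟩, ?_⟩
    rw [Nat.mem_primeFactors]
    have h2 : 2 ≤ q ^ orderOf (q : ZMod P) :=
      hq.two_le.trans (Nat.le_self_pow (by omega) q)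
    refine ⟨hPp, ?_, by omega⟩
    rw [← ZMod.natCast_eq_zero_iff, Nat.cast_sub (by omega), Nat.cast_pow, pow_orderOf_eq_one]
    simp
  refine (card_le_card hsub).trans ?_
  refine (card_biUnion_le).trans ?_
  calc ∑ q ∈ (Icc 1 b).filter (fun q => 2 ≤ q),
        ((Icc 1 T).biUnion fun d => (q ^ d - 1).primeFactors).card
      ≤ ∑ q ∈ (Icc 1 b).filter (fun q => 2 ≤ q), T * (b * T) := by
        refine sum_le_sum fun q hq => ?_
        rw [mem_filter, mem_Icc] at hq
        refine card_biUnion_le.trans ?_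
        calc ∑ d ∈ Icc 1 T, (q ^ d - 1).primeFactors.card
            ≤ ∑ d ∈ Icc 1 T, b * T := by
              refine sum_le_sum fun d hd => ?_
              rw [mem_Icc] at hd
              exact (OrdFew.card_primeFactors_pow_sub hq.2 hd.1).trans
                (Nat.mul_le_mul hq.1.2 hd.2)
          _ = T * (b * T) := by
              rw [sum_const, Nat.card_Icc, Nat.add_sub_cancel, smul_eq_mul]
    _ ≤ ∑ q ∈ Icc 1 b, T * (b * T) :=
        sum_le_sum_of_subset (filter_subset _ _)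
    _ = b ^ 2 * T ^ 2 := by
        rw [sum_const, Nat.card_Icc, Nat.add_sub_cancel, smul_eq_mul]
        ring

end P033
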