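import Mathlib

/-!
# P033, module PARSEVAL
-/

namespace P033

open Finset ComplexConjugate

theorem Parseval.sum_zmod {m : ℕ} [NeZero m] (f : ℕ → ℂ) :
    ∑ s : ZMod m, f s.val = ∑ k ∈ range m, f k := by
  refine sum_nbij' (fun s => s.val) (fun k => (k : ZMod m)) ?_ ?_ ?_ ?_ ?_
  · intro s _
    rw [mem_range]
    exact ZMod.val_lt s
  · intro k _
    exact mem_univ _
  · intro s _
    exact ZMod.natCast_zmod_val s
  · intro k hk
    exact ZMod.val_cast_of_lt (mem_range.mp hk)
  · intro s _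
    rfl

theorem Parseval.orth {m : ℕ} [NeZero m] {η : ℂ} (hη : IsPrimitiveRoot η m) (x y : ZMod m) :
    ∑ s : ZMod m, η ^ (s.val * x.val) * conj (η ^ (s.val * y.val)) =
      if x = y then (m : ℂ) else 0 := by
  have hm : m ≠ 0 := NeZero.ne m
  have hnorm : ‖η‖ = 1 := hη.norm'_eq_one hm
  have hcc : η * conj η = 1 := by
    rw [Complex.mul_conj, Complex.normSq_eq_norm_sq, hnorm]
    simp
  have h1 : ∀ s : ZMod m, η ^ (s.val * x.val) * conj (η ^ (s.val * y.val)) =
      (η ^ x.val * (conj η) ^ y.val) ^ s.val := by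
    intro s
    rw [map_pow, mul_pow, ← pow_mul, ← pow_mul, mul_comm s.val, mul_comm s.val]
  simp_rw [h1]
  rw [Parseval.sum_zmod (fun k => (η ^ x.val * (conj η) ^ y.val) ^ k)]
  by_cases hxy : x = y
  · subst hxy
    rw [if_pos rfl, ← mul_pow, hcc]
    simp
  · rw [if_neg hxy]
    have hw : (η ^ x.val * (conj η) ^ y.val) ^ m = 1 := by
      rw [mul_pow, ← pow_mul, ← pow_mul, mul_comm x.val, mul_comm y.val, pow_mul, pow_mul,
        hη.pow_eq_one, ← map_pow, hη.pow_eq_one]
      simp
    have hne : η ^ x.val * (conj η) ^ y.val ≠ 1 := by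
      intro h
      apply hxy
      have h2 : η ^ x.val = η ^ y.val := by
        calc η ^ x.val = η ^ x.val * (η * conj η) ^ y.val := by rw [hcc, one_pow, mul_one]
          _ = (η ^ x.val * (conj η) ^ y.val) * η ^ y.val := by rw [mul_pow]; ring
          _ = η ^ y.val := by rw [h, one_mul]
      exact ZMod.val_injective m (hη.pow_inj (ZMod.val_lt x) (ZMod.val_lt y) h2)
    have h3 := geom_sum_mul (η ^ x.val * (conj η) ^ y.val) m
    rw [hw, sub_self] at h3
    exact (mul_eq_zero.mp h3).resolve_right (sub_ne_zero.mpr hne)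

/-- Parseval's identity on `ZMod m` for a primitive `m`-th root of unity `η`. -/
theorem parseval {m : ℕ} [NeZero m] {η : ℂ} (hη : IsPrimitiveRoot η m) (a : ZMod m → ℂ) :
    ∑ s : ZMod m, ‖∑ x : ZMod m, a x * η ^ (s.val * x.val)‖ ^ 2 = m * ∑ x, ‖a x‖ ^ 2 := by
  have key : ∀ z : ℂ, ((‖z‖ ^ 2 : ℝ) : ℂ) = z * conj z := by
    intro z
    rw [Complex.mul_conj, Complex.normSq_eq_norm_sq]
  have h : ((∑ s : ZMod m, ‖∑ x : ZMod m, a x * η ^ (s.val * x.val)‖ ^ 2 : ℝ) : ℂ) =
      ((m * ∑ x, ‖a x‖ ^ 2 : ℝ) : ℂ) := by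
    rw [Complex.ofReal_sum, Complex.ofReal_mul, Complex.ofReal_sum]
    simp_rw [key, map_sum, map_mul, sum_mul_sum]
    rw [sum_comm]
    rw [Complex.ofReal_natCast, mul_sum]
    refine sum_congr rfl fun x _ => ?_
    rw [sum_comm]
    have h2 : ∀ y ∈ (univ : Finset (ZMod m)),
        ∑ s : ZMod m, a x * η ^ (s.val * x.val) * (conj (a y) * conj (η ^ (s.val * y.val))) =
        if x = y then (m : ℂ) * (a x * conj (a x)) else 0 := by
      intro y _
      have h3 : ∀ s : ZMod m,
          a x * η ^ (s.val * x.val) * (conj (a y) * conj (η ^ (s.val * y.val))) =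
          (a x * conj (a y)) * (η ^ (s.val * x.val) * conj (η ^ (s.val * y.val))) := by
        intro s
        ring
      simp_rw [h3]
      rw [← mul_sum, Parseval.orth hη]
      split_ifs with hxy
      · subst hxy
        ring
      · simp
    rw [sum_congr rfl h2]
    simp
  exact_mod_cast h

end P033
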