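import Vale.Agent.P033.Field

/-!
# P033, module ROOT: Kronecker's theorem for unitary integral elements
-/

namespace P033

variable {n : ℕ} [NeZero n] {K : Type*} [Field K] [NumberField K]
  [IsCyclotomicExtension {n} ℚ K] {ζ : K}

/-- A root of unity of `K = ℚ(ζ_n)`, `n` even, is a power of `ζ`
(`IsCyclotomicExtension.Rat.torsionOrder_eq` or
`IsPrimitiveRoot.exists_pow_or_neg_mul_pow_of_isOfFinOrder`-style arguments). -/
theorem root_of_unity (hζ : IsPrimitiveRoot ζ n) (hn : Even n) {w : K} {m : ℕ} (hm : 0 < m)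
    (h : w ^ m = 1) : ∃ a : ℕ, w = ζ ^ a := by
  obtain ⟨l, hl, hlroot⟩ := (isRoot_of_unity_iff hm _).1 h
  have hl0 : l ≠ 0 := by
    rintro rfl
    simp at hl
  have hlzero : NeZero l := ⟨hl0⟩
  have : NeZero (l : K) := ⟨NeZero.natCast_ne l K⟩
  rw [Polynomial.isRoot_cyclotomic_iff] at hlroot
  have hdvd : l ∣ NumberField.Units.torsionOrder K :=
    NumberField.Units.dvd_torsionOrder_of_isPrimitiveRoot hlroot
  rw [IsCyclotomicExtension.Rat.torsionOrder_eq (n := n) (K := K), if_pos hn] at hdvd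
  obtain ⟨k, hk⟩ := hdvd
  have hw : w ^ n = 1 := by rw [hk, pow_mul, hlroot.pow_eq_one, one_pow]
  obtain ⟨a, -, ha⟩ := hζ.eq_pow_of_pow_eq_one hw
  exact ⟨a, ha.symm⟩

/-- Kronecker: an integral element `w` with `w * c w = 1` is a power of `ζ`
(`NumberField.Embeddings.pow_eq_one_of_norm_eq_one`, `emb_conj`). -/
theorem unitary_integral (hζ : IsPrimitiveRoot ζ n) (hn : Even n) {c : K ≃ₐ[ℚ] K}
    (hc : c ζ = ζ⁻¹) {w : K} (hw : IsIntegral ℤ w) (h1 : w * c w = 1) :
    ∃ a : ℕ, w = ζ ^ a := by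
  obtain ⟨m, hm, hwm⟩ := NumberField.Embeddings.pow_eq_one_of_norm_eq_one K ℂ hw (by
    intro φ
    have h2 : φ w * φ (c w) = 1 := by rw [← map_mul, h1, map_one]
    rw [emb_conj hζ hc φ w, Complex.mul_conj] at h2
    have h3 : Complex.normSq (φ w) = 1 := by exact_mod_cast h2
    rw [Complex.normSq_eq_norm_sq] at h3
    nlinarith [norm_nonneg (φ w), sq_nonneg (‖φ w‖ - 1)])
  exact root_of_unity hζ hn hm hwm

end P033
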