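import Vale.Agent.P033.Grade
import Vale.Agent.P033.AMGM
import Vale.Agent.P033.Parseval
import Vale.Agent.P033.Field

/-!
# P033, module SUPP: integral elements of constant modulus have small support
-/

namespace P033

open Finset

section int

variable {n : ℕ} [NeZero n] {K : Type*} [Field K] [NumberField K]
  [IsCyclotomicExtension {n} ℚ K] {ζ : K}

/-- The homogeneous components of an algebraic integer are algebraic integers
(write it as a `ℤ`-combination of powers of `ζ`; `σ (ζ ^ a) = ω ^ a * ζ ^ a`). -/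
theorem proj_integral (hζ : IsPrimitiveRoot ζ n) {P : ℕ} [NeZero P] (hPn : P ∣ n)
    {σ : K ≃ₐ[ℚ] K} {ω : K} (G : Grd P σ ω) (hω : ω = ζ ^ (n / P)) (hσ : σ ζ = ω * ζ)
    {x : K} (hx : IsIntegral ℤ x) (l : ZMod P) : IsIntegral ℤ (proj P σ ω l x) := by
  have hζi : IsIntegral ℤ ζ := hζ.isIntegral (NeZero.pos n)
  have hspan := mem_span_of_isIntegral hζ hx
  clear hx
  induction hspan using Submodule.span_induction with
  | mem y hy =>
      obtain ⟨a, rfl⟩ := hy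
      have heig : σ (ζ ^ a) = ω ^ ((a : ZMod P)).val * ζ ^ a := by
        rw [map_pow, hσ, mul_pow]
        congr 1
        apply G.pow_congr
        simp
      by_cases hl : l = (a : ZMod P)
      · rw [hl, proj_of_eig G heig]
        exact hζi.pow a
      · rw [proj_of_eig_ne G heig hl]
        exact isIntegral_zero
  | zero =>
      rw [proj_zero]
      exact isIntegral_zero
  | add y z _ _ hy hz =>
      rw [proj_add]
      exact hy.add hz
  | smul a y _ hy =>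
      rw [zsmul_eq_mul, proj_zmul]
      exact (isIntegral_algebraMap (R := ℤ) (x := a)).mul hy

end int

section card

variable {K : Type*} [Field K] [NumberField K] {P : ℕ} [NeZero P] {σ : K ≃ₐ[ℚ] K} {ω : K}

omit [NumberField K] in
/-- Sums over `ZMod P` of functions of the representative. -/
theorem sum_zmod_eq {P : ℕ} [NeZero P] {M : Type*} [AddCommMonoid M] (f : ℕ → M) :
    ∑ i : ZMod P, f i.val = ∑ i ∈ range P, f i := by
  refine sum_bij (fun (i : ZMod P) _ => i.val) ?_ ?_ ?_ ?_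
  · intro l _
    exact mem_range.mpr (ZMod.val_lt l)
  · intro a _ b _ hab
    exact ZMod.val_injective P hab
  · intro j hj
    exact ⟨(j : ZMod P), mem_univ _, ZMod.val_natCast_of_lt (mem_range.mp hj)⟩
  · intro l _
    rfl

/-- Parseval for the grading: `∑_l ‖φ (proj l x)‖² = P⁻¹ ∑_{i<P} ‖φ (σ^i x)‖²`. -/
theorem sum_norm_proj (G : Grd P σ ω) (φ : K →+* ℂ) (x : K) :
    ∑ l : ZMod P, ‖φ (proj P σ ω l x)‖ ^ 2 = (P : ℝ)⁻¹ * ∑ i ∈ range P, ‖φ ((σ ^ i) x)‖ ^ 2 := by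
  have hP0 : (P : ℝ) ≠ 0 := by exact_mod_cast G.hP.ne_zero
  have hη : IsPrimitiveRoot (φ ω)⁻¹ P := (G.prim.map_of_injective φ.injective).inv
  have hpars := parseval hη (fun i : ZMod P => φ ((σ ^ i.val) x))
  have hterm : ∀ l : ZMod P, ‖φ (proj P σ ω l x)‖ ^ 2 = ((P : ℝ)⁻¹) ^ 2 *
      ‖∑ i : ZMod P, φ ((σ ^ i.val) x) * ((φ ω)⁻¹) ^ (l.val * i.val)‖ ^ 2 := by
    intro l
    have h1 : φ (proj P σ ω l x) = (P : ℂ)⁻¹ *
        ∑ i : ZMod P, φ ((σ ^ i.val) x) * ((φ ω)⁻¹) ^ (l.val * i.val) := by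
      unfold proj
      rw [map_mul, map_inv₀, map_natCast, map_sum,
        sum_zmod_eq (fun i => φ ((σ ^ i) x) * ((φ ω)⁻¹) ^ (l.val * i))]
      congr 1
      refine sum_congr rfl fun i _ => ?_
      rw [map_mul, map_inv₀, map_pow, inv_pow, mul_comm l.val i, mul_comm]
    rw [h1, norm_mul, mul_pow, norm_inv, Complex.norm_natCast]
  rw [sum_congr rfl fun l _ => hterm l, ← mul_sum, hpars,
    sum_zmod_eq (fun i => ‖φ ((σ ^ i) x)‖ ^ 2)]
  field_simp

/-- The support of an algebraic integer all of whose conjugates have square modulus `B` has at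
most `B` elements. -/
theorem card_supp_le (G : Grd P σ ω)
    (hint : ∀ x : K, IsIntegral ℤ x → ∀ l : ZMod P, IsIntegral ℤ (proj P σ ω l x))
    {x : K} (hx : IsIntegral ℤ x) {B : ℝ} (hB : ∀ φ : K →+* ℂ, ‖φ x‖ ^ 2 = B) :
    ((supp P σ ω x).card : ℝ) ≤ B := by
  have hP0 : (P : ℝ) ≠ 0 := by exact_mod_cast G.hP.ne_zero
  have hd : (0 : ℝ) < (Module.finrank ℚ K : ℝ) := by
    exact_mod_cast (Module.finrank_pos : 0 < Module.finrank ℚ K)
  have h1 : ∀ φ : K →+* ℂ, ∑ l : ZMod P, ‖φ (proj P σ ω l x)‖ ^ 2 = B := by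
    intro φ
    rw [sum_norm_proj G φ x]
    have h2 : ∀ i ∈ range P, ‖φ ((σ ^ i) x)‖ ^ 2 = B := by
      intro i _
      exact hB (φ.comp ((σ ^ i : K ≃ₐ[ℚ] K) : K →+* K))
    rw [sum_congr rfl h2, sum_const, card_range, nsmul_eq_mul, inv_mul_cancel_left₀ hP0]
  have h3 : ∑ φ : K →+* ℂ, ∑ l : ZMod P, ‖φ (proj P σ ω l x)‖ ^ 2
      = (Module.finrank ℚ K : ℝ) * B := by
    rw [sum_congr rfl fun φ _ => h1 φ, sum_const, card_univ, NumberField.Embeddings.card K ℂ,
      nsmul_eq_mul]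
  rw [sum_comm] at h3
  have h4 : ∑ l ∈ supp P σ ω x, (Module.finrank ℚ K : ℝ)
      ≤ ∑ l ∈ supp P σ ω x, ∑ φ : K →+* ℂ, ‖φ (proj P σ ω l x)‖ ^ 2 :=
    sum_le_sum fun l hl => amgm (hint x hx l) (mem_supp.mp hl)
  have h5 : ∑ l ∈ supp P σ ω x, ∑ φ : K →+* ℂ, ‖φ (proj P σ ω l x)‖ ^ 2
      ≤ ∑ l : ZMod P, ∑ φ : K →+* ℂ, ‖φ (proj P σ ω l x)‖ ^ 2 :=
    sum_le_sum_of_subset_of_nonneg (subset_univ _) fun l _ _ =>
      sum_nonneg fun φ _ => by positivity
  rw [sum_const, nsmul_eq_mul] at h4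
  have h6 := h4.trans (h5.trans h3.le)
  rw [mul_comm] at h6
  exact le_of_mul_le_mul_left h6 hd

end card

end P033
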