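import Vale.Agent.P033.Grade
import Vale.Agent.P033.Parseval
import Vale.Agent.P033.Field

/-!
# P033, module THMA-F: from a homogeneous twist to the final inequality
-/

namespace P033

open Finset

section eig

variable {K : Type*} [Field K] [Algebra ℚ K] {P : ℕ} [NeZero P] {σ : K ≃ₐ[ℚ] K} {ω : K}

/-- If `w = σ X / X` is an eigenvector of `σ` then `w ^ P = 1` (product over the `σ`-orbit), so `X`
itself is an eigenvector. -/
theorem eig_of_hom (G : Grd P σ ω) (hP2 : P ≠ 2) {X : K} (hX0 : X ≠ 0) {l : ZMod P}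
    (h : σ (σ X / X) = ω ^ l.val * (σ X / X)) : ∃ j : ZMod P, σ X = ω ^ j.val * X := by
  obtain ⟨w, hw⟩ : ∃ w, w = σ X / X := ⟨_, rfl⟩
  rw [← hw] at h
  have hX : σ X = w * X := by rw [hw]; field_simp
  have key : ∀ i : ℕ, (σ ^ i) X = w ^ i * ω ^ (l.val * (i * (i - 1) / 2)) * X ∧
      (σ ^ i) w = ω ^ (l.val * i) * w := by
    intro i
    induction i with
    | zero => simp
    | succ i ih =>
      have h1 : (σ ^ (i + 1)) X = (σ ^ i) (σ X) := by rw [pow_succ]; rfl
      have h2 : (σ ^ (i + 1)) w = (σ ^ i) (σ w) := by rw [pow_succ]; rfl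
      have h3 : (σ ^ i) ω = ω := by
        clear ih h1 h2
        induction i with
        | zero => simp
        | succ i ih => rw [pow_succ', AlgEquiv.mul_apply, ih, G.fix]
      refine ⟨?_, ?_⟩
      · rw [h1, hX, map_mul, ih.1, ih.2]
        have h4 : (i + 1) * (i + 1 - 1) / 2 = i * (i - 1) / 2 + i := by
          rcases i with _ | i
          · rfl
          · have : (i + 1 + 1) * (i + 1 + 1 - 1) = (i + 1) * (i + 1 - 1) + 2 * (i + 1) := by
              simp only [Nat.add_sub_cancel]; ring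
            rw [this, Nat.add_mul_div_left _ _ (by norm_num)]
        rw [h4, mul_add, pow_add, pow_succ]
        ring
      · rw [h2, h, map_mul, map_pow, h3, ih.2]
        ring
  have hP := (key P).1
  rw [G.pow] at hP
  have hodd : P * (P - 1) / 2 = P * ((P - 1) / 2) := by
    have h1 : 2 ∣ P - 1 := by
      have := G.hP.eq_two_or_odd'.resolve_left hP2
      obtain ⟨k, hk⟩ := this
      exact ⟨k, by omega⟩
    rw [Nat.mul_div_assoc _ h1]
  have h1 : ω ^ (l.val * (P * (P - 1) / 2)) = 1 := by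
    rw [hodd, ← mul_assoc, mul_comm l.val P, mul_assoc, pow_mul, G.prim.pow_eq_one, one_pow]
  rw [h1, mul_one] at hP
  have h2 : w ^ P = 1 := by
    have h3 : w ^ P * X = 1 * X := by rw [one_mul]; exact hP.symm
    exact mul_right_cancel₀ hX0 h3
  obtain ⟨j, hj, hjw⟩ := G.prim.eq_pow_of_pow_eq_one h2
  refine ⟨(j : ZMod P), ?_⟩
  rw [ZMod.val_natCast, Nat.mod_eq_of_lt hj, hjw, hX]

end eig

theorem pow_mod_orderOf' {K : Type*} [Field K] [Algebra ℚ K] {P : ℕ} {σ : K ≃ₐ[ℚ] K} {ω : K}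
    (G : Grd P σ ω) (x : ℕ) : ω ^ x = ω ^ (x % P) := by
  conv_lhs => rw [← Nat.div_add_mod x P]
  rw [pow_add, pow_mul, G.prim.pow_eq_one, one_pow, one_mul]

section fin

variable {n : ℕ} [NeZero n] {K : Type*} [Field K] [NumberField K]
  [IsCyclotomicExtension {n} ℚ K] {ζ : K}

/-- at most `n / P` elements of `ZMod n` are `j` mod `P` -/
theorem card_res_le {n P : ℕ} [NeZero n] [NeZero P] (hPn : P ∣ n) (j : ZMod P) :
    ((univ : Finset (ZMod n)).filter (fun x => ((x.val : ℕ) : ZMod P) = j)).card ≤ n / P := by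
  obtain ⟨m, rfl⟩ := hPn
  have hP : 0 < P := Nat.pos_of_neZero P
  rw [Nat.mul_div_cancel_left _ hP]
  have h1 : ((univ : Finset (ZMod (P * m))).filter
      (fun x => ((x.val : ℕ) : ZMod P) = j)) ⊆
      (range m).image (fun i => ((P * i + j.val : ℕ) : ZMod (P * m))) := by
    intro x hx
    rw [mem_filter] at hx
    rw [mem_image]
    refine ⟨x.val / P, ?_, ?_⟩
    · rw [mem_range]
      exact Nat.div_lt_of_lt_mul x.val_lt
    · have h2 : x.val % P = j.val := by
        rw [← hx.2, ZMod.val_natCast]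
      rw [← h2, Nat.div_add_mod, ZMod.natCast_zmod_val]
  refine (card_le_card h1).trans (card_image_le.trans ?_)
  rw [card_range]

/-- If `Y = ∑ h(x) ζ^x` has constant square modulus `n` and is an eigenvector of `σ : ζ ↦ ω ζ`,
`ω = ζ ^ (n / P)`, then only the `x ≡ j mod P` contribute, and Parseval gives `P φ(n) ≤ n`. -/
theorem final_ineq (hζ : IsPrimitiveRoot ζ n) {P : ℕ} [NeZero P] (hPn : P ∣ n)
    {c : K ≃ₐ[ℚ] K} (hc : c ζ = ζ⁻¹)
    {σ : K ≃ₐ[ℚ] K} {ω : K} (G : Grd P σ ω) (hω : ω = ζ ^ (n / P)) (hσ : σ ζ = ω * ζ)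
    (h : ZMod n → ℤ) (hpm : ∀ x, h x = 1 ∨ h x = -1) {Y : K}
    (hY : Y = ∑ x : ZMod n, (h x : K) * ζ ^ x.val) (hYc : Y * c Y = (n : K)) {j : ZMod P}
    (hj : σ Y = ω ^ j.val * Y) : P * n.totient ≤ n := by
  classical
  have hn0 : 0 < n := Nat.pos_of_neZero n
  have hP0 : 0 < P := Nat.pos_of_neZero P
  -- the homogeneous components
  have hpow : ∀ x : ℕ, σ (ζ ^ x) = ω ^ ((x : ZMod P)).val * ζ ^ x := by
    intro x
    rw [map_pow, hσ, mul_pow, ZMod.val_natCast]
    congr 1
    exact (pow_mod_orderOf' G x)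
  have hYj : Y = ∑ x : ZMod n, (if ((x.val : ℕ) : ZMod P) = j then (h x : K) else 0) * ζ ^ x.val := by
    have h1 := proj_of_eig G hj
    rw [← h1]
    conv_lhs => rw [hY]
    rw [proj_sum]
    refine sum_congr rfl fun x _ => ?_
    rw [proj_zmul]
    split_ifs with hx
    · rw [proj_of_eig G (l := j)]
      rw [hpow, hx]
    · rw [proj_of_eig_ne G (hpow x.val) (Ne.symm hx)]
      simp
  -- an embedding
  obtain ⟨φ⟩ : Nonempty (K →+* ℂ) := inferInstance
  have hη : IsPrimitiveRoot (φ ζ) n := hζ.map_of_injective φ.injective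
  set a : ZMod n → ℂ := fun x => if ((x.val : ℕ) : ZMod P) = j then (h x : ℂ) else 0 with ha
  have hpars := parseval hη a
  have hval : ∀ s : ZMod n, s.val.Coprime n → ‖∑ x : ZMod n, a x * φ ζ ^ (s.val * x.val)‖ ^ 2 = n := by
    intro s hs
    obtain ⟨τ, hτ⟩ := exists_aut hζ hs
    have h1 : φ (τ Y) = ∑ x : ZMod n, a x * φ ζ ^ (s.val * x.val) := by
      rw [hYj, map_sum, map_sum]
      refine sum_congr rfl fun x _ => ?_
      rw [map_mul, map_mul, map_pow, hτ, map_pow, map_pow, ← pow_mul, ha]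
      congr 1
      simp only
      split_ifs <;> simp
    rw [← h1]
    have h2 : τ Y * c (τ Y) = (n : K) := by
      have h3 : c (τ Y) = τ (c Y) := by
        have := aut_comm hζ c τ
        exact DFunLike.congr_fun this Y
      rw [h3, ← map_mul, hYc, map_natCast]
    have h4 := congrArg φ h2
    rw [map_mul, emb_conj hζ hc, Complex.mul_conj, map_natCast, Complex.normSq_eq_norm_sq] at h4
    exact_mod_cast h4
  have hlow : (n.totient : ℝ) * n ≤ ∑ s : ZMod n, ‖∑ x : ZMod n, a x * φ ζ ^ (s.val * x.val)‖ ^ 2 := by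
    have h1 : ∑ s ∈ univ.filter (fun s : ZMod n => s.val.Coprime n),
        ‖∑ x : ZMod n, a x * φ ζ ^ (s.val * x.val)‖ ^ 2 ≤
        ∑ s : ZMod n, ‖∑ x : ZMod n, a x * φ ζ ^ (s.val * x.val)‖ ^ 2 :=
      sum_le_sum_of_subset_of_nonneg (filter_subset _ _) (fun _ _ _ => by positivity)
    refine le_trans (le_of_eq ?_) h1
    rw [sum_congr rfl (fun s hs => hval s (mem_filter.1 hs).2), sum_const, nsmul_eq_mul]
    congr 1
    norm_cast
    rw [Nat.totient_eq_card_coprime]
    refine card_bij (fun (i : ℕ) _ => (i : ZMod n)) ?_ ?_ ?_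
    · intro i hi
      rw [mem_filter, mem_range] at hi
      rw [mem_filter]
      refine ⟨mem_univ _, ?_⟩
      rw [ZMod.val_natCast, Nat.mod_eq_of_lt hi.1]
      exact hi.2.symm
    · intro i hi i' hi' hii
      rw [mem_filter, mem_range] at hi hi'
      have := congrArg ZMod.val hii
      rwa [ZMod.val_natCast, ZMod.val_natCast, Nat.mod_eq_of_lt hi.1, Nat.mod_eq_of_lt hi'.1] at this
    · intro s hs
      rw [mem_filter] at hs
      refine ⟨s.val, ?_, ?_⟩
      · rw [mem_filter, mem_range]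
        exact ⟨s.val_lt, hs.2.symm⟩
      · exact ZMod.natCast_zmod_val s
  have hup : ∑ x : ZMod n, ‖a x‖ ^ 2 ≤ (n / P : ℕ) := by
    have h1 : ∑ x : ZMod n, ‖a x‖ ^ 2 =
        ((univ : Finset (ZMod n)).filter (fun x => ((x.val : ℕ) : ZMod P) = j)).card := by
      rw [card_filter]
      push_cast
      refine sum_congr rfl fun x _ => ?_
      rw [ha]
      simp only
      split_ifs
      · rcases hpm x with hx | hx <;> rw [hx] <;> simp
      · simp
    rw [h1]
    exact_mod_cast card_res_le hPn j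
  have hfin : (n.totient : ℝ) * n ≤ n * (n / P : ℕ) := by
    refine hlow.trans ?_
    rw [hpars]
    exact mul_le_mul_of_nonneg_left hup (by positivity)
  have hfin' : n.totient ≤ n / P := by
    have h1 : n.totient * n ≤ n * (n / P) := by exact_mod_cast hfin
    rw [mul_comm] at h1
    exact Nat.le_of_mul_le_mul_left h1 hn0
  calc P * n.totient ≤ P * (n / P) := Nat.mul_le_mul_left _ hfin'
    _ = n := Nat.mul_div_cancel' hPn

end fin

end P033
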