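import Vale.Agent.P033.Frob

/-!
# P033, module THMA-W: the unitary element `w = σ X / X` has small denominator
-/

namespace P033

open Finset

variable {n : ℕ} [NeZero n] {K : Type*} [Field K] [NumberField K]
  [IsCyclotomicExtension {n} ℚ K] {ζ : K}

omit [IsCyclotomicExtension {n} ℚ K] in
theorem integral_div_mul {y : K} {a b : ℕ} (ha : a ≠ 0) (hb : b ≠ 0) (hab : a.Coprime b)
    (h1 : IsIntegral ℤ (y / (a : K))) (h2 : IsIntegral ℤ (y / (b : K))) :
    IsIntegral ℤ (y / ((a * b : ℕ) : K)) := by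
  have ha' : (a : K) ≠ 0 := Nat.cast_ne_zero.2 ha
  have hb' : (b : K) ≠ 0 := Nat.cast_ne_zero.2 hb
  have hbez : (1 : ℤ) = a * Nat.gcdA a b + b * Nat.gcdB a b := by
    have := Nat.gcd_eq_gcd_ab a b
    rw [hab] at this
    exact_mod_cast this
  have hbez' : (1 : K) = a * (Nat.gcdA a b : ℤ) + b * (Nat.gcdB a b : ℤ) := by
    have := congrArg (fun z : ℤ => (z : K)) hbez
    push_cast at this
    exact_mod_cast this
  have key : y / ((a * b : ℕ) : K) =
      ((Nat.gcdA a b : ℤ) : K) * (y / (b : K)) + ((Nat.gcdB a b : ℤ) : K) * (y / (a : K)) := by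
    have h3 : y / ((a * b : ℕ) : K) = y * 1 / ((a : K) * b) := by
      push_cast
      rw [mul_one]
    rw [h3, hbez']
    field_simp
  rw [key]
  have hi : ∀ z : ℤ, IsIntegral ℤ (z : K) := fun z => isIntegral_algebraMap (A := K) (x := z)
  exact ((hi _).mul h2).add ((hi _).mul h1)

/-- If `y / a` and `y / b` are integral with `a, b` coprime integers, so is `y / (a b)`; iterate. -/
theorem integral_div_prod {y : K} (s : Finset ℕ) (f : ℕ → ℕ) (hpos : ∀ i ∈ s, f i ≠ 0)
    (hcop : ∀ i ∈ s, ∀ j ∈ s, i ≠ j → (f i).Coprime (f j)) (hy : IsIntegral ℤ y)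
    (h : ∀ i ∈ s, IsIntegral ℤ (y / (f i : K))) :
    IsIntegral ℤ (y / ((∏ i ∈ s, f i : ℕ) : K)) := by
  classical
  induction s using Finset.induction_on with
  | empty => simpa using hy
  | insert i s hi ih =>
    rw [Finset.prod_insert hi]
    apply integral_div_mul (hpos i (Finset.mem_insert_self _ _))
    · exact Finset.prod_ne_zero_iff.2 fun j hj => hpos j (Finset.mem_insert_of_mem hj)
    · apply Nat.Coprime.prod_right
      intro j hj
      exact hcop i (Finset.mem_insert_self _ _) j (Finset.mem_insert_of_mem hj)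
        (fun e => hi (e ▸ hj))
    · exact h i (Finset.mem_insert_self _ _)
    · exact ih (fun j hj => hpos j (Finset.mem_insert_of_mem hj))
        (fun j hj l hl => hcop j (Finset.mem_insert_of_mem hj) l (Finset.mem_insert_of_mem hl))
        (fun j hj => h j (Finset.mem_insert_of_mem hj))

/-- By `frobDiv`, `q ^ (2 v_q(u))` divides `σ X * c X` for every prime `q ∣ u` outside `Q`. -/
theorem w_integral (hζ : IsPrimitiveRoot ζ n) {u : ℕ} (hu : 0 < u) {c : K ≃ₐ[ℚ] K}
    {σ : K ≃ₐ[ℚ] K} {s : ℕ} (hσ : σ ζ = ζ ^ s) (Q : Finset ℕ) (hQ : ∀ q ∈ Q, q.Prime)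
    (hgood : ∀ q, q.Prime → q ∣ u → q ∉ Q → ∃ k, s ≡ q ^ k [MOD ordCompl[q] n])
    {X : K} (hX : IsIntegral ℤ X) (hXc : X * c X = (u : K) ^ 2) :
    IsIntegral ℤ ((((∏ p ∈ Q, p ^ u.factorization p) ^ 2 : ℕ) : K) *
      (σ X * c X / (u : K) ^ 2)) := by
  classical
  have hu0 : u ≠ 0 := hu.ne'
  have huK : (u : K) ≠ 0 := Nat.cast_ne_zero.2 hu0
  have hcX : IsIntegral ℤ (c X) := hX.map (c.restrictScalars ℤ : K →ₐ[ℤ] K)
  have hσX : IsIntegral ℤ (σ X) := hX.map (σ.restrictScalars ℤ : K →ₐ[ℤ] K)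
  set A : ℕ := ∏ p ∈ u.primeFactors \ Q, p ^ (2 * u.factorization p) with hA
  have hN : ∏ p ∈ Q, p ^ u.factorization p =
      ∏ p ∈ u.primeFactors ∩ Q, p ^ u.factorization p := by
    symm
    apply Finset.prod_subset Finset.inter_subset_right
    intro p hp hp2
    have h1 : p ∉ u.primeFactors := fun h => hp2 (Finset.mem_inter.2 ⟨h, hp⟩)
    have h2 : ¬ p ∣ u := fun h => h1 (Nat.mem_primeFactors.2 ⟨hQ p hp, h, hu0⟩)
    rw [Nat.factorization_eq_zero_of_not_dvd h2, pow_zero]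
  have huf : u = (∏ p ∈ u.primeFactors \ Q, p ^ u.factorization p) *
      ∏ p ∈ u.primeFactors ∩ Q, p ^ u.factorization p := by
    conv_lhs => rw [← Nat.prod_factorization_pow_eq_self hu0]
    rw [Finsupp.prod, Nat.support_factorization, mul_comm]
    rw [Finset.prod_inter_mul_prod_sdiff]
  have hAu : A * (∏ p ∈ Q, p ^ u.factorization p) ^ 2 = u ^ 2 := by
    have h1 : A = (∏ p ∈ u.primeFactors \ Q, p ^ u.factorization p) ^ 2 := by
      rw [hA, ← Finset.prod_pow]
      apply Finset.prod_congr rfl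
      intro p _
      rw [← pow_mul, mul_comm]
    rw [h1, hN, ← mul_pow, ← huf]
  have hA0 : A ≠ 0 := by
    intro h
    rw [h, zero_mul] at hAu
    exact pow_ne_zero 2 hu0 hAu.symm
  have hAK : (A : K) ≠ 0 := Nat.cast_ne_zero.2 hA0
  have hmain : (((∏ p ∈ Q, p ^ u.factorization p) ^ 2 : ℕ) : K) *
      (σ X * c X / (u : K) ^ 2) = σ X * c X / (A : K) := by
    have h1 : (u : K) ^ 2 = (A : K) * (((∏ p ∈ Q, p ^ u.factorization p) ^ 2 : ℕ) : K) := by
      rw [← Nat.cast_mul, hAu, Nat.cast_pow]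
    have h2 : (((∏ p ∈ Q, p ^ u.factorization p) ^ 2 : ℕ) : K) ≠ 0 := by
      intro h
      rw [h, mul_zero] at h1
      exact pow_ne_zero 2 huK h1
    rw [h1]
    field_simp
  rw [hmain, hA]
  apply integral_div_prod
  · intro p hp
    exact pow_ne_zero _ (Nat.prime_of_mem_primeFactors (Finset.mem_sdiff.1 hp).1).ne_zero
  · intro p hp q hq hpq
    apply Nat.Coprime.pow
    exact (Nat.coprime_primes (Nat.prime_of_mem_primeFactors (Finset.mem_sdiff.1 hp).1)
      (Nat.prime_of_mem_primeFactors (Finset.mem_sdiff.1 hq).1)).2 hpq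
  · exact hσX.mul hcX
  · intro q hq
    obtain ⟨hq1, hq2⟩ := Finset.mem_sdiff.1 hq
    have hqp := Nat.prime_of_mem_primeFactors hq1
    obtain ⟨k, hk⟩ := hgood q hqp (Nat.dvd_of_mem_primeFactors hq1) hq2
    have h1 : IsIntegral ℤ (X * c X / (q : K) ^ (2 * u.factorization q)) := by
      rw [hXc]
      obtain ⟨t, ht⟩ := Nat.ordProj_dvd u q
      have hq0 : (q : K) ≠ 0 := Nat.cast_ne_zero.2 hqp.ne_zero
      have h2 : (u : K) ^ 2 / (q : K) ^ (2 * u.factorization q) = ((t ^ 2 : ℕ) : K) := by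
        rw [div_eq_iff (pow_ne_zero _ hq0)]
        conv_lhs => rw [ht]
        push_cast
        ring
      rw [h2]
      exact_mod_cast isIntegral_algebraMap (R := ℤ) (A := K) (x := ((t ^ 2 : ℕ) : ℤ))
    have h3 := frobDiv hζ hqp hσ hk hX hcX h1
    rw [Nat.cast_pow]
    exact h3

end P033
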