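import Vale.Agent.P033.Field

/-!
# P033, module THMA-X: the algebraic integer `X = ½ ∑ h(x) ζ^x`
-/

namespace P033

open Finset

variable {n : ℕ} [NeZero n] {K : Type*} [Field K] [NumberField K]
  [IsCyclotomicExtension {n} ℚ K] {ζ : K}

omit [NumberField K] [IsCyclotomicExtension {n} ℚ K] in
theorem pow_val_add (hζ : IsPrimitiveRoot ζ n) (x t : ZMod n) :
    ζ ^ (x + t).val = ζ ^ x.val * ζ ^ t.val := by
  rw [ZMod.val_add, ← pow_add]
  have key : ∀ m : ℕ, ζ ^ (m % n) = ζ ^ m := by
    intro m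
    conv_lhs => rw [hζ.eq_orderOf]
    exact pow_mod_orderOf ζ m
  exact key _

omit [NumberField K] [IsCyclotomicExtension {n} ℚ K] in
theorem sum_pow_val (hζ : IsPrimitiveRoot ζ n) (hn : 1 < n) :
    ∑ x : ZMod n, ζ ^ x.val = 0 := by
  have h1 : ∀ t : ZMod n, ζ ^ t.val * ∑ x : ZMod n, ζ ^ x.val = ∑ x : ZMod n, ζ ^ x.val := by
    intro t
    rw [mul_sum]
    rw [← Equiv.sum_comp (Equiv.addLeft t) (fun x : ZMod n => ζ ^ x.val)]
    refine sum_congr rfl fun x _ => ?_
    rw [Equiv.coe_addLeft, pow_val_add hζ]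
  have h2 := h1 1
  have h3 : (1 : ZMod n).val = 1 := by
    have : Fact (1 < n) := ⟨hn⟩
    exact ZMod.val_one n
  rw [h3, pow_one] at h2
  have h4 : (ζ - 1) * ∑ x : ZMod n, ζ ^ x.val = 0 := by
    rw [sub_mul, h2, one_mul, sub_self]
  rcases mul_eq_zero.mp h4 with h5 | h5
  · exact absurd (sub_eq_zero.mp h5) (hζ.ne_one hn)
  · exact h5

theorem exists_X (hζ : IsPrimitiveRoot ζ n) {u : ℕ} (hn : n = 4 * u ^ 2) (hu : 0 < u)
    {c : K ≃ₐ[ℚ] K} (hc : c ζ = ζ⁻¹) (h : ZMod n → ℤ) (hpm : ∀ x, h x = 1 ∨ h x = -1)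
    (hperf : ∀ t : ZMod n, t ≠ 0 → ∑ x, h x * h (x + t) = 0) :
    ∃ X : K, IsIntegral ℤ X ∧ 2 * X = ∑ x : ZMod n, (h x : K) * ζ ^ x.val ∧
      X * c X = (u : K) ^ 2 := by
  classical
  have hn1 : 1 < n := by
    have : 1 ≤ u ^ 2 := Nat.one_le_pow _ _ hu
    omega
  have hζ0 : ζ ≠ 0 := hζ.ne_zero (by omega)
  have hint : IsIntegral ℤ ζ := hζ.isIntegral (by omega)
  set X : K := ∑ x : ZMod n, (if h x = 1 then 1 else 0) * ζ ^ x.val with hX
  have h2X : 2 * X = ∑ x : ZMod n, (h x : K) * ζ ^ x.val := by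
    have : 2 * X = ∑ x : ZMod n, (h x : K) * ζ ^ x.val + ∑ x : ZMod n, ζ ^ x.val := by
      rw [hX, mul_sum, ← sum_add_distrib]
      refine sum_congr rfl fun x _ => ?_
      rcases hpm x with hx | hx
      · rw [hx, if_pos rfl]
        push_cast
        ring
      · rw [hx, if_neg (by norm_num)]
        push_cast
        ring
    rw [this, sum_pow_val hζ hn1, add_zero]
  refine ⟨X, ?_, h2X, ?_⟩
  · rw [hX]
    refine IsIntegral.sum _ fun x _ => ?_
    refine IsIntegral.mul ?_ (hint.pow _)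
    split_ifs
    · exact isIntegral_one
    · exact isIntegral_zero
  · have hcX : 2 * c X = ∑ x : ZMod n, (h x : K) * (ζ ^ x.val)⁻¹ := by
      have h7 : 2 * c X = c (2 * X) := by rw [map_mul, map_ofNat]
      rw [h7, h2X, map_sum]
      refine sum_congr rfl fun x _ => ?_
      rw [map_mul, map_intCast, map_pow, hc, inv_pow]
    have h4 : (2 * X) * (2 * c X) = (n : K) := by
      rw [h2X, hcX, sum_mul_sum]
      have e1 : ∀ x : ZMod n, ∑ y : ZMod n, ((h x : K) * ζ ^ x.val) * ((h y : K) * (ζ ^ y.val)⁻¹) =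
          ∑ t : ZMod n, ((h x * h (x + t) : ℤ) : K) * (ζ ^ t.val)⁻¹ := by
        intro x
        rw [← Equiv.sum_comp (Equiv.addLeft x)]
        refine sum_congr rfl fun t _ => ?_
        rw [Equiv.coe_addLeft, pow_val_add hζ, mul_inv]
        have : ζ ^ x.val ≠ 0 := pow_ne_zero _ hζ0
        push_cast
        field_simp
      rw [sum_congr rfl fun x _ => e1 x, sum_comm]
      have e2 : ∀ t : ZMod n, ∑ x : ZMod n, ((h x * h (x + t) : ℤ) : K) * (ζ ^ t.val)⁻¹ =
          if t = 0 then (n : K) else 0 := by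
        intro t
        rw [← sum_mul, ← Int.cast_sum]
        split_ifs with ht
        · subst ht
          have e3 : ∑ x : ZMod n, h x * h (x + 0) = n := by
            have : ∀ x : ZMod n, h x * h (x + 0) = 1 := by
              intro x
              rw [add_zero]
              rcases hpm x with hx | hx <;> rw [hx] <;> norm_num
            rw [sum_congr rfl fun x _ => this x]
            simp [ZMod.card]
          rw [e3]
          simp
        · rw [hperf t ht]
          simp
      rw [sum_congr rfl fun t _ => e2 t]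
      simp
    have h5 : (4 : K) * (X * c X) = 4 * (u : K) ^ 2 := by
      have h6 : (n : K) = 4 * (u : K) ^ 2 := by
        rw [hn]
        push_cast
        ring
      rw [← h6, ← h4]
      ring
    exact mul_left_cancel₀ (by norm_num) h5

end P033
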