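import Vale.Agent.P033.Iter
import Vale.Agent.P033.Supp
import Vale.Agent.P033.ThmAX
import Vale.Agent.P033.ThmAW
import Vale.Agent.P033.ThmAF

/-!
# P033, module THMA: twisted field descent (Theorem A)
-/

namespace P033

open Finset

/-- Theorem A inside a given cyclotomic field `K`. -/
theorem theoremA_aux {n u P : ℕ} [NeZero n] (K : Type*) [Field K] [NumberField K]
    [IsCyclotomicExtension {n} ℚ K] (hn : n = 4 * u ^ 2) (hP : P.Prime) (hP2 : P ≠ 2)
    (hPu : P ∣ u) (h : ZMod n → ℤ) (hpm : ∀ x, h x = 1 ∨ h x = -1)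
    (hperf : ∀ t : ZMod n, t ≠ 0 → ∑ x, h x * h (x + t) = 0)
    (Q : Finset ℕ) (hQ : ∀ q ∈ Q, q.Prime)
    (hgood : ∀ q, q.Prime → q ∣ u → q ∉ Q → ∃ k, 1 + n / P ≡ q ^ k [MOD ordCompl[q] n])
    (hbad : ∀ q ∈ Q, (∏ p ∈ Q, p ^ u.factorization p) ^ (2 ^ (Q.card + 2)) <
      orderOf (q : ZMod P)) :
    P * n.totient ≤ n := by
  have hn0 : n ≠ 0 := NeZero.ne n
  have hu0 : 0 < u := by
    rcases Nat.eq_zero_or_pos u with h0 | h0
    · rw [h0] at hn
      exact absurd hn (by simpa using hn0)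
    · exact h0
  have hPf : NeZero P := ⟨hP.ne_zero⟩
  have hP2n : P * P ∣ n := by
    rw [hn]
    have h1 : P * P ∣ u ^ 2 := by
      rw [pow_two]
      exact mul_dvd_mul hPu hPu
    exact h1.mul_left 4
  have hPn : P ∣ n := (dvd_mul_right P P).trans hP2n
  have hPm : P ∣ n / P := (Nat.dvd_div_iff_mul_dvd hPn).2 hP2n
  have hnP : P * (n / P) = n := Nat.mul_div_cancel' hPn
  obtain ⟨ζ, hζ⟩ : ∃ ζ : K, IsPrimitiveRoot ζ n :=
    ⟨_, IsCyclotomicExtension.zeta_spec n ℚ K⟩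
  obtain ⟨ω, hω⟩ : ∃ ω : K, ω = ζ ^ (n / P) := ⟨_, rfl⟩
  have hωprim : IsPrimitiveRoot ω P := by
    rw [hω]
    exact hζ.pow (Nat.pos_of_ne_zero hn0) (by rw [mul_comm]; exact hnP.symm)
  -- the automorphism σ
  have hcop : (1 + n / P).Coprime n := by
    have h1 : (1 + n / P).Coprime (n / P) := by simp
    have h2 : (1 + n / P).Coprime P := h1.coprime_dvd_right hPm
    have h3 : (1 + n / P).Coprime (P * (n / P)) := Nat.Coprime.mul_right h2 h1
    rwa [hnP] at h3
  obtain ⟨σ, hσs⟩ := exists_aut hζ hcop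
  have hσ : σ ζ = ω * ζ := by rw [hσs, pow_add, pow_one, hω, mul_comm]
  have hσω : σ ω = ω := by
    obtain ⟨k, hk⟩ := hPm
    rw [hω, map_pow, hσ, mul_pow, ← hω]
    have : ω ^ (n / P) = 1 := by rw [hk, pow_mul, hωprim.pow_eq_one, one_pow]
    rw [this, one_mul]
  have hσi : ∀ i : ℕ, (σ ^ i) ζ = ω ^ i * ζ := by
    intro i
    induction i with
    | zero => simp
    | succ i ih =>
      rw [pow_succ', AlgEquiv.mul_apply, ih, map_mul, map_pow, hσω, hσ, pow_succ]
      ring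
  have G : Grd P σ ω := by
    refine ⟨hP, hωprim, hσω, ?_⟩
    apply aut_ext hζ
    rw [hσi, hωprim.pow_eq_one, one_mul]
    rfl
  -- complex conjugation
  have hn1 : 1 < n := by
    have : 2 ≤ P := hP.two_le
    exact lt_of_lt_of_le this (Nat.le_of_dvd (Nat.pos_of_ne_zero hn0) hPn)
  have hcopc : (n - 1).Coprime n := by
    have h1 : n = (n - 1) + 1 := by omega
    have h2 : (n - 1).Coprime ((n - 1) + 1) := by simp
    rwa [← h1] at h2
  obtain ⟨c, hcs⟩ := exists_aut hζ hcopc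
  have hc : c ζ = ζ⁻¹ := by
    rw [hcs]
    apply eq_inv_of_mul_eq_one_left
    rw [← pow_succ, Nat.sub_add_cancel hn1.le, hζ.pow_eq_one]
  have hcc : ∀ x : K, c (c x) = x := by
    have h1 : c * c = 1 := by
      apply aut_ext hζ
      show c (c ζ) = ζ
      rw [hc, map_inv₀, hc, inv_inv]
    intro x
    have := DFunLike.congr_fun h1 x
    simpa using this
  have hcσ : ∀ x : K, c (σ x) = σ (c x) := by
    intro x
    have := DFunLike.congr_fun (aut_comm hζ c σ) x
    simpa using this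
  have heven : Even n := by rw [hn]; exact ⟨2 * u ^ 2, by ring⟩
  -- the element X
  obtain ⟨X, hXint, hX2, hXc⟩ := exists_X hζ hn hu0 hc h hpm hperf
  have huK : (u : K) ≠ 0 := Nat.cast_ne_zero.2 hu0.ne'
  have hX0 : X ≠ 0 := by
    rintro rfl
    rw [zero_mul] at hXc
    exact (pow_ne_zero 2 huK) hXc.symm
  obtain ⟨N, hN⟩ : ∃ N : ℕ, N = ∏ p ∈ Q, p ^ u.factorization p := ⟨_, rfl⟩
  have hN0 : N ≠ 0 := by
    rw [hN]
    exact Finset.prod_ne_zero_iff.2 fun p hp => pow_ne_zero _ (hQ p hp).ne_zero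
  obtain ⟨w, hwdef⟩ : ∃ w : K, w = σ X * c X / (u : K) ^ 2 := ⟨_, rfl⟩
  have hwX : w = σ X / X := by
    rw [hwdef, ← hXc]
    have : c X ≠ 0 := by
      intro h0
      rw [h0, mul_zero] at hXc
      exact (pow_ne_zero 2 huK) hXc.symm
    field_simp
  have hw1 : w * c w = 1 := by
    have h1 : c w = σ (c X) * X / (u : K) ^ 2 := by
      rw [hwdef, map_div₀, map_mul, map_pow, map_natCast, hcc, hcσ]
    rw [h1, hwdef]
    have h2 : σ X * c X / (u : K) ^ 2 * (σ (c X) * X / (u : K) ^ 2) =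
        (σ (X * c X)) * (X * c X) / (u : K) ^ 4 := by
      rw [map_mul]
      field_simp
    rw [h2, hXc, map_pow, map_natCast]
    field_simp
  have hwint : IsIntegral ℤ (((N ^ 2 : ℕ) : K) * w) := by
    have := w_integral hζ hu0 (c := c) hσs Q hQ hgood hXint hXc
    rw [hN, hwdef]
    exact this
  have hw0 : w ≠ 0 := by
    rintro rfl
    simp at hw1
  -- the support of w
  have hsupp : ((supp P σ ω w).card : ℝ) ≤ (N : ℝ) ^ 4 := by
    have hB : ∀ φ : K →+* ℂ, ‖φ (((N ^ 2 : ℕ) : K) * w)‖ ^ 2 = (N : ℝ) ^ 4 := by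
      intro φ
      have h1 : ‖φ w‖ ^ 2 = 1 := by
        have h2 : φ w * (starRingEnd ℂ) (φ w) = 1 := by
          rw [← emb_conj hζ hc, ← map_mul, hw1, map_one]
        rw [Complex.mul_conj, Complex.normSq_eq_norm_sq] at h2
        exact_mod_cast h2
      rw [map_mul, norm_mul, mul_pow, h1, mul_one, map_natCast, Complex.norm_natCast]
      push_cast
      ring
    have h1 := card_supp_le G (fun x hx l => proj_integral hζ hPn G hω hσ hx l) hwint hB
    have hg0 : (((N ^ 2 : ℕ) : K)) ≠ 0 := Nat.cast_ne_zero.2 (pow_ne_zero 2 hN0)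
    have h2 := supp_eig_mul G hg0 (c := 0) (by simp) w
    have h3 : (supp P σ ω (((N ^ 2 : ℕ) : K) * w)).card = (supp P σ ω w).card := by
      rw [h2]
      apply Finset.card_image_of_injective
      intro a b hab
      simpa using hab
    rw [h3] at h1
    exact h1
  have hsuppN : (supp P σ ω w).card ≤ N ^ 4 := by exact_mod_cast hsupp
  have hone : (supp P σ ω w).card = 1 := by
    apply iter hζ heven hc hPn G hω hσ Q.toList (fun q hq => hQ q (Finset.mem_toList.1 hq))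
      Q.nodup_toList w hw1 (N ^ 2) (pow_ne_zero 2 hN0) ?_ hwint ?_
    · intro p hp hpN
      have h1 : p ∣ N := hp.dvd_of_dvd_pow hpN
      rw [hN] at h1
      obtain ⟨q, hq, hpq⟩ := (Prime.dvd_finsetProd_iff hp.prime _).1 h1
      have h2 : p ∣ q := hp.dvd_of_dvd_pow hpq
      have h3 : p = q := (Nat.prime_dvd_prime_iff_eq hp (hQ q hq)).1 h2
      rw [h3]
      exact Finset.mem_toList.2 hq
    · intro q hq
      have hq' := Finset.mem_toList.1 hq
      refine lt_of_le_of_lt ?_ (hbad q hq')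
      rw [← hN, Finset.length_toList]
      calc (supp P σ ω w).card ^ (2 ^ Q.card) ≤ (N ^ 4) ^ (2 ^ Q.card) :=
            Nat.pow_le_pow_left hsuppN _
        _ = N ^ (2 ^ (Q.card + 2)) := by
            rw [← pow_mul, pow_add]
            congr 1
            ring
  obtain ⟨l, hl⟩ := eig_of_card_one G hone
  rw [hwX] at hl
  obtain ⟨j, hj⟩ := eig_of_hom G hP2 hX0 hl
  have hYc : (2 * X) * c (2 * X) = (n : K) := by
    have h2 : c (2 : K) = 2 := map_ofNat c 2
    rw [map_mul, h2]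
    calc 2 * X * (2 * c X) = 4 * (X * c X) := by ring
      _ = (n : K) := by rw [hXc, hn]; push_cast; ring
  have hYj : σ (2 * X) = ω ^ j.val * (2 * X) := by
    have h2 : σ (2 : K) = 2 := map_ofNat σ 2
    rw [map_mul, h2, hj]
    ring
  exact final_ineq hζ hPn hc G hω hσ h hpm hX2 hYc hYj

/-- **Theorem A.**  Let `n = 4 u²`, `P` an odd prime dividing `u`, and `h` a perfect sign sequence
of period `n`.  Let `Q` contain all primes `q ∣ u` for which `1 + n / P` is not a power of `q`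
modulo the prime-to-`q` part of `n`.  If `N ^ (2 ^ (|Q| + 2)) < ord_P(q)` for all `q ∈ Q`, where
`N` is the `Q`-part of `u`, then `P φ(n) ≤ n`. -/
theorem theoremA {n u P : ℕ} [NeZero n] (hn : n = 4 * u ^ 2) (hP : P.Prime) (hP2 : P ≠ 2)
    (hPu : P ∣ u) (h : ZMod n → ℤ) (hpm : ∀ x, h x = 1 ∨ h x = -1)
    (hperf : ∀ t : ZMod n, t ≠ 0 → ∑ x, h x * h (x + t) = 0)
    (Q : Finset ℕ) (hQ : ∀ q ∈ Q, q.Prime)
    (hgood : ∀ q, q.Prime → q ∣ u → q ∉ Q → ∃ k, 1 + n / P ≡ q ^ k [MOD ordCompl[q] n])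
    (hbad : ∀ q ∈ Q, (∏ p ∈ Q, p ^ u.factorization p) ^ (2 ^ (Q.card + 2)) <
      orderOf (q : ZMod P)) :
    P * n.totient ≤ n := by
  have iC : IsCyclotomicExtension {n} ℚ (CyclotomicField n ℚ) :=
    CyclotomicField.isCyclotomicExtension n ℚ
  have iN : NumberField (CyclotomicField n ℚ) :=
    IsCyclotomicExtension.numberField {n} ℚ (CyclotomicField n ℚ)
  exact theoremA_aux (CyclotomicField n ℚ) hn hP hP2 hPu h hpm hperf Q hQ hgood hbad

end P033
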