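import Vale.Agent.P033.Wief

/-!
# P033, module WIEF2: the explicit bound
-/

namespace P033

open Finset

/-- Take `k = ⌈2 log P / log b⌉` in `wief_pow`: `k! ≤ k^k`, `P^{1/k} ≥ b^{1/4}`,
`k ≤ 1 + 3 log P`. -/
theorem wief_bound {P b : ℕ} (hP : P.Prime) (hb : 2 ≤ b) :
    ∑ q ∈ wiefA P b, (1 : ℝ) / q ≤ (1 + 3 * Real.log P) ^ 3 / (b : ℝ) ^ (1 / 4 : ℝ) := by
  have hbR : (2 : ℝ) ≤ b := by exact_mod_cast hb
  have hlP : 0 ≤ Real.log P := Real.log_natCast_nonneg P
  rcases (wiefA P b).eq_empty_or_nonempty with h0 | ⟨q, hq⟩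
  · rw [h0, Finset.sum_empty]; positivity
  have hbP : b < P := by
    unfold wiefA at hq
    rw [Finset.mem_filter, Finset.mem_Ioo] at hq
    omega
  have hbPR : (b : ℝ) < P := by exact_mod_cast hbP
  have hlb : Real.log 2 ≤ Real.log b := Real.log_le_log (by norm_num) hbR
  have hl2 := Real.log_two_gt_d9
  have hlb0 : 0 < Real.log b := by linarith
  have hlbP : Real.log b < Real.log P := Real.log_lt_log (by linarith) hbPR
  have hPR : (0 : ℝ) < P := by linarith
  obtain ⟨k, hk⟩ : ∃ k, k = ⌈2 * Real.log P / Real.log b⌉₊ := ⟨_, rfl⟩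
  have hk1 : 2 * Real.log P / Real.log b ≤ k := by rw [hk]; exact Nat.le_ceil _
  have hk2 : (k : ℝ) < 2 * Real.log P / Real.log b + 1 := by
    rw [hk]; exact Nat.ceil_lt_add_one (by positivity)
  have hk3 : 2 * Real.log P ≤ k * Real.log b := by
    rwa [div_le_iff₀ hlb0] at hk1
  have hk4 : (k : ℝ) * Real.log b < 2 * Real.log P + Real.log b := by
    have := mul_lt_mul_of_pos_right hk2 hlb0
    have h2 : (2 * Real.log P / Real.log b + 1) * Real.log b = 2 * Real.log P + Real.log b := by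
      field_simp
    linarith
  have hk5 : 2 ≤ k := by
    have h3 : (1 : ℝ) < k := by
      have h4 : 2 < 2 * Real.log P / Real.log b := by
        rw [lt_div_iff₀ hlb0]; linarith
      linarith
    exact_mod_cast h3
  have hk6 : (k : ℝ) ≤ 1 + 3 * Real.log P := by
    have h4 : 2 * Real.log P / Real.log b ≤ 3 * Real.log P := by
      rw [div_le_iff₀ hlb0]
      nlinarith
    linarith
  have hbk : P ^ 2 ≤ b ^ k := by
    have h5 : Real.log ((P : ℝ) ^ 2) ≤ Real.log ((b : ℝ) ^ k) := by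
      rw [Real.log_pow, Real.log_pow]; push_cast; exact hk3
    have h6 := (Real.log_le_log_iff (by positivity) (by positivity)).1 h5
    exact_mod_cast h6
  have hmain := wief_pow (P := P) (b := b) (k := k) hP hk5 hbk
  have hL1 : 1 ≤ 1 + 3 * Real.log P := by linarith
  have hRHS0 : 0 ≤ (1 + 3 * Real.log P) ^ 3 / (b : ℝ) ^ (1 / 4 : ℝ) := by positivity
  refine le_of_pow_le_pow_left₀ (n := k) (by omega) hRHS0 (hmain.trans ?_)
  rw [div_pow, mul_div_assoc']
  have hfac : (k.factorial : ℝ) ≤ (1 + 3 * Real.log P) ^ k := by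
    have h7 : (k.factorial : ℝ) ≤ (k : ℝ) ^ k := by exact_mod_cast Nat.factorial_le_pow k
    exact h7.trans (pow_le_pow_left₀ (by positivity) hk6 k)
  have hlog : 1 + k * Real.log P ≤ ((1 + 3 * Real.log P) ^ 2) ^ k := by
    have h8 : 1 + k * Real.log P ≤ (1 + 3 * Real.log P) ^ 2 := by nlinarith
    exact h8.trans (le_self_pow₀ (one_le_pow₀ hL1) (by omega))
  have hPb : ((b : ℝ) ^ (1 / 4 : ℝ)) ^ k ≤ P := by
    have hb0 : (0 : ℝ) < b := by linarith
    have h9 : (0 : ℝ) < ((b : ℝ) ^ (1 / 4 : ℝ)) ^ k := by positivity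
    rw [← Real.log_le_log_iff h9 hPR, Real.log_pow, Real.log_rpow hb0]
    nlinarith
  have hnum : (k.factorial : ℝ) * (1 + k * Real.log P) ≤ ((1 + 3 * Real.log P) ^ 3) ^ k := by
    calc (k.factorial : ℝ) * (1 + k * Real.log P) ≤
        (1 + 3 * Real.log P) ^ k * ((1 + 3 * Real.log P) ^ 2) ^ k :=
          mul_le_mul hfac hlog (by positivity) (by positivity)
      _ = ((1 + 3 * Real.log P) ^ 3) ^ k := by rw [← mul_pow]; ring_nf
  exact div_le_div₀ (by positivity) hnum (by positivity) hPb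

end P033
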