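import Vale.Agent.P033.Det
import Vale.Agent.P033.Wief2
import Vale.Agent.P033.OrdFew

/-!
# P033, module UNION: counting the exceptional `u ≤ x`
-/

namespace P033

open Finset
open scoped Classical

/-- Markov's inequality for finite sums. -/
theorem Union.markov (s : Finset ℕ) (f : ℕ → ℝ) (hf : ∀ u ∈ s, 0 ≤ f u) {c B : ℝ} (hc : 0 < c)
    (hB : ∑ u ∈ s, f u ≤ B) : ((s.filter fun u => c ≤ f u).card : ℝ) ≤ B / c := by
  rw [le_div_iff₀ hc]
  calc ((s.filter fun u => c ≤ f u).card : ℝ) * c = ∑ u ∈ s.filter (fun u => c ≤ f u), c := by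
        rw [sum_const, nsmul_eq_mul]
    _ ≤ ∑ u ∈ s.filter (fun u => c ≤ f u), f u := by
        apply sum_le_sum
        intro u hu
        exact (mem_filter.mp hu).2
    _ ≤ ∑ u ∈ s, f u := by
        apply sum_le_sum_of_subset_of_nonneg (filter_subset _ _)
        intro u hu _
        exact hf u hu
    _ ≤ B := hB

theorem Union.logS_nonneg (y u : ℕ) : 0 ≤ logS y u := by
  unfold logS
  apply sum_nonneg
  intro q _
  have := Real.log_natCast_nonneg q
  positivity

/-- Multiples of `m` in `[1, x]`. -/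
theorem Union.card_multiples (x m : ℕ) :
    (((Icc 1 x).filter fun u => m ∣ u).card : ℝ) ≤ x / m := by
  have h : ((Icc 1 x).filter fun u => m ∣ u).card = x / m := by
    have := Nat.card_multiples' x m
    rw [← this]
    congr 1
    ext u
    simp only [mem_filter, mem_Icc, mem_range]
    omega
  rw [h]
  exact Nat.cast_div_le

theorem Union.card_biUnion_real {ι : Type*} (S : Finset ι) (A : ι → Finset ℕ) (F : Finset ℕ)
    (hF : ∀ u ∈ F, ∃ i ∈ S, u ∈ A i) : (F.card : ℝ) ≤ ∑ i ∈ S, ((A i).card : ℝ) := by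
  have h1 : F ⊆ S.biUnion A := by
    intro u hu
    rw [mem_biUnion]
    exact hF u hu
  have h2 := (card_le_card h1).trans card_biUnion_le
  exact_mod_cast h2

/-- Number of `u ≤ x` such that all prime factors of `u` are `≤ y`. -/
theorem count1 {x y : ℕ} (hx : 2 ≤ x) (hy : 1 ≤ y) :
    (((Icc 1 x).filter fun u => ∀ p, p.Prime → p ∣ u → p ≤ y).card : ℝ) ≤
      Real.sqrt x + x * (4 * (Real.log y + Real.log 4) / Real.log x) := by
  have hlx : 0 < Real.log x := Real.log_pos (by exact_mod_cast hx)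
  have h1 := Union.markov (Icc 1 x) (fun u => logS y u) (fun u _ => Union.logS_nonneg y u)
    (c := Real.log x / 2) (by positivity) (sum_logS (x := x) hy)
  have h2 : (((Icc 1 x).filter fun u => ∀ p, p.Prime → p ∣ u → p ≤ y).card : ℝ) ≤
      ((Icc 1 (Nat.sqrt x)).card : ℝ) +
        (((Icc 1 x).filter fun u => Real.log x / 2 ≤ logS y u).card : ℝ) := by
    have hsub : ((Icc 1 x).filter fun u => ∀ p, p.Prime → p ∣ u → p ≤ y) ⊆
        Icc 1 (Nat.sqrt x) ∪ ((Icc 1 x).filter fun u => Real.log x / 2 ≤ logS y u) := by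
      intro u hu
      rw [mem_filter, mem_Icc] at hu
      rw [mem_union, mem_Icc, mem_filter, mem_Icc]
      by_cases hus : u ≤ Nat.sqrt x
      · exact Or.inl ⟨hu.1.1, hus⟩
      · right
        refine ⟨hu.1, ?_⟩
        rw [logS_eq (by omega) hu.2]
        have h3 : x < u * u := Nat.sqrt_lt.mp (not_le.mp hus)
        have h4 : Real.log x ≤ Real.log (u * u : ℝ) := by
          apply Real.log_le_log (by exact_mod_cast (by omega : 0 < x))
          exact_mod_cast h3.le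
        have hu0 : (u : ℝ) ≠ 0 := by
          have := hu.1.1
          exact_mod_cast (by omega : u ≠ 0)
        rw [Real.log_mul hu0 hu0] at h4
        linarith
    have h5 := (card_le_card hsub).trans (card_union_le _ _)
    exact_mod_cast h5
  rw [Nat.card_Icc, Nat.add_sub_cancel] at h2
  have h6 : (Nat.sqrt x : ℝ) ≤ Real.sqrt x := Real.nat_sqrt_le_real_sqrt
  have h7 : (x : ℝ) * (2 * Real.log y + 2 * Real.log 4) / (Real.log x / 2) =
      x * (4 * (Real.log y + Real.log 4) / Real.log x) := by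
    field_simp
    ring
  rw [h7] at h1
  linarith

theorem Union.sum_inv_sq (y x : ℕ) (hy : 1 ≤ y) :
    ∑ m ∈ Ioc y x, (1 : ℝ) / (m : ℝ) ^ 2 ≤ 1 / y := by
  rcases le_or_gt x y with h | h
  · rw [Ioc_eq_empty (by omega), sum_empty]
    positivity
  have hmain : ∀ k : ℕ, ∑ m ∈ Ioc y (y + k), (1 : ℝ) / (m : ℝ) ^ 2 ≤ 1 / y - 1 / (y + k : ℕ) := by
    intro k
    induction k with
    | zero => simp
    | succ k ih =>
      have h3 : Ioc y (y + (k + 1)) = insert (y + (k + 1)) (Ioc y (y + k)) := by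
        ext m
        simp only [mem_insert, mem_Ioc]
        omega
      rw [h3, sum_insert (by simp)]
      have hyR : (1 : ℝ) ≤ y := by exact_mod_cast hy
      have hk : (0 : ℝ) ≤ k := Nat.cast_nonneg k
      have h4 : (1 : ℝ) / ((y + (k + 1) : ℕ) : ℝ) ^ 2 ≤ 1 / (y + k : ℕ) - 1 / (y + (k + 1) : ℕ) := by
        push_cast
        rw [div_sub_div _ _ (by positivity) (by positivity), div_le_div_iff₀ (by positivity)
          (by positivity)]
        nlinarith
      linarith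
  have h2 := hmain (x - y)
  rw [Nat.add_sub_cancel' h.le] at h2
  have h5 : (0 : ℝ) ≤ 1 / (x : ℝ) := by positivity
  linarith

/-- Number of `u ≤ x` divisible by `P²` for some prime `P > y`. -/
theorem count2 {x y : ℕ} (hy : 1 ≤ y) :
    (((Icc 1 x).filter fun u => ∃ P, P.Prime ∧ y < P ∧ P ^ 2 ∣ u).card : ℝ) ≤ x / y := by
  have h1 := Union.card_biUnion_real (Ioc y x) (fun P => (Icc 1 x).filter fun u => P ^ 2 ∣ u)
    ((Icc 1 x).filter fun u => ∃ P, P.Prime ∧ y < P ∧ P ^ 2 ∣ u) (by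
      intro u hu
      rw [mem_filter, mem_Icc] at hu
      obtain ⟨⟨hu1, hux⟩, P, hP, hyP, hPu⟩ := hu
      refine ⟨P, ?_, ?_⟩
      · rw [mem_Ioc]
        refine ⟨hyP, ?_⟩
        have h2 := Nat.le_of_dvd (by omega) hPu
        have h3 : P ≤ P ^ 2 := Nat.le_self_pow (by norm_num) P
        omega
      · rw [mem_filter, mem_Icc]
        exact ⟨⟨hu1, hux⟩, hPu⟩)
  refine h1.trans ?_
  calc ∑ P ∈ Ioc y x, (((Icc 1 x).filter fun u => P ^ 2 ∣ u).card : ℝ)
      ≤ ∑ P ∈ Ioc y x, (x : ℝ) * (1 / (P : ℝ) ^ 2) := by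
        apply sum_le_sum
        intro P hP
        rw [mem_Ioc] at hP
        have h2 := Union.card_multiples x (P ^ 2)
        refine h2.trans (le_of_eq ?_)
        push_cast
        ring
    _ = x * ∑ P ∈ Ioc y x, (1 : ℝ) / (P : ℝ) ^ 2 := by rw [mul_sum]
    _ ≤ x * (1 / y) := by
        apply mul_le_mul_of_nonneg_left (Union.sum_inv_sq y x hy) (Nat.cast_nonneg x)
    _ = x / y := by ring

theorem Union.sum_inv_le (x : ℕ) : ∑ m ∈ Icc 1 x, (1 : ℝ) / m ≤ 1 + Real.log x := by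
  have h := harmonic_le_one_add_log x
  rw [harmonic_eq_sum_Icc] at h
  push_cast at h
  refine le_trans (le_of_eq ?_) h
  apply sum_congr rfl
  intro m _
  rw [one_div]

/-- Number of `u ≤ x` divisible by `P > y` and by some `q ∈ wiefA P b`. -/
theorem count3 {x y b : ℕ} (hb : 2 ≤ b) :
    (((Icc 1 x).filter fun u => ∃ P, P.Prime ∧ y < P ∧ P ∣ u ∧ ∃ q ∈ wiefA P b, q ∣ u).card : ℝ) ≤
      x * ((1 + Real.log x) * (1 + 3 * Real.log x) ^ 3 / (b : ℝ) ^ (1 / 4 : ℝ)) := by
  have h1 := Union.card_biUnion_real ((Icc 1 x).filter Nat.Prime)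
    (fun P => (wiefA P b).biUnion fun q => (Icc 1 x).filter fun u => P * q ∣ u)
    ((Icc 1 x).filter fun u => ∃ P, P.Prime ∧ y < P ∧ P ∣ u ∧ ∃ q ∈ wiefA P b, q ∣ u) (by
      intro u hu
      rw [mem_filter, mem_Icc] at hu
      obtain ⟨⟨hu1, hux⟩, P, hP, hyP, hPu, q, hq, hqu⟩ := hu
      refine ⟨P, ?_, ?_⟩
      · rw [mem_filter, mem_Icc]
        exact ⟨⟨hP.one_le, (Nat.le_of_dvd (by omega) hPu).trans hux⟩, hP⟩
      · rw [mem_biUnion]
        refine ⟨q, hq, ?_⟩
        rw [mem_filter, mem_Icc]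
        refine ⟨⟨hu1, hux⟩, ?_⟩
        unfold wiefA at hq
        rw [mem_filter, mem_Ioo] at hq
        have hcop : Nat.Coprime P q := (Nat.coprime_primes hP hq.2.1).mpr (by omega)
        exact hcop.mul_dvd_of_dvd_of_dvd hPu hqu)
  refine h1.trans ?_
  have hbR : (0 : ℝ) < (b : ℝ) ^ (1 / 4 : ℝ) := by
    apply Real.rpow_pos_of_pos
    exact_mod_cast (by omega : 0 < b)
  calc ∑ P ∈ (Icc 1 x).filter Nat.Prime,
        (((wiefA P b).biUnion fun q => (Icc 1 x).filter fun u => P * q ∣ u).card : ℝ)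
      ≤ ∑ P ∈ (Icc 1 x).filter Nat.Prime,
        ((x : ℝ) * ((1 + 3 * Real.log x) ^ 3 / (b : ℝ) ^ (1 / 4 : ℝ))) * (1 / (P : ℝ)) := by
        apply sum_le_sum
        intro P hP
        rw [mem_filter, mem_Icc] at hP
        obtain ⟨⟨hP1, hPx⟩, hP⟩ := hP
        have h2 : (((wiefA P b).biUnion fun q =>
            (Icc 1 x).filter fun u => P * q ∣ u).card : ℝ) ≤
            ∑ q ∈ wiefA P b, (((Icc 1 x).filter fun u => P * q ∣ u).card : ℝ) := by
          have := card_biUnion_le (s := wiefA P b)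
            (t := fun q => (Icc 1 x).filter fun u => P * q ∣ u)
          exact_mod_cast this
        refine h2.trans ?_
        have hPR : (0 : ℝ) < P := by exact_mod_cast hP.pos
        have h3 : ∑ q ∈ wiefA P b, (((Icc 1 x).filter fun u => P * q ∣ u).card : ℝ) ≤
            ∑ q ∈ wiefA P b, ((x : ℝ) / P) * (1 / (q : ℝ)) := by
          apply sum_le_sum
          intro q hq
          unfold wiefA at hq
          rw [mem_filter] at hq
          have h4 := Union.card_multiples x (P * q)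
          refine h4.trans (le_of_eq ?_)
          push_cast
          have hqR : (0 : ℝ) < q := by exact_mod_cast hq.2.1.pos
          field_simp
        refine h3.trans ?_
        rw [← mul_sum]
        have h5 := wief_bound hP hb
        have h6 : Real.log P ≤ Real.log x := by
          apply Real.log_le_log hPR
          exact_mod_cast hPx
        have h7 : 0 ≤ Real.log P := Real.log_natCast_nonneg P
        have h8 : (1 + 3 * Real.log P) ^ 3 / (b : ℝ) ^ (1 / 4 : ℝ) ≤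
            (1 + 3 * Real.log x) ^ 3 / (b : ℝ) ^ (1 / 4 : ℝ) := by
          apply div_le_div_of_nonneg_right _ hbR.le
          apply pow_le_pow_left₀ (by positivity)
          linarith
        calc (x : ℝ) / P * ∑ q ∈ wiefA P b, (1 : ℝ) / q
            ≤ (x : ℝ) / P * ((1 + 3 * Real.log x) ^ 3 / (b : ℝ) ^ (1 / 4 : ℝ)) := by
              apply mul_le_mul_of_nonneg_left (h5.trans h8)
              positivity
          _ = (x : ℝ) * ((1 + 3 * Real.log x) ^ 3 / (b : ℝ) ^ (1 / 4 : ℝ)) * (1 / (P : ℝ)) := by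
              ring
    _ = ((x : ℝ) * ((1 + 3 * Real.log x) ^ 3 / (b : ℝ) ^ (1 / 4 : ℝ))) *
        ∑ P ∈ (Icc 1 x).filter Nat.Prime, (1 / (P : ℝ)) := by rw [mul_sum]
    _ ≤ ((x : ℝ) * ((1 + 3 * Real.log x) ^ 3 / (b : ℝ) ^ (1 / 4 : ℝ))) * (1 + Real.log x) := by
        apply mul_le_mul_of_nonneg_left _ (by
          have := Real.log_natCast_nonneg x
          positivity)
        refine le_trans ?_ (Union.sum_inv_le x)
        apply sum_le_sum_of_subset_of_nonneg (filter_subset _ _)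
        intro m _ _
        positivity
    _ = x * ((1 + Real.log x) * (1 + 3 * Real.log x) ^ 3 / (b : ℝ) ^ (1 / 4 : ℝ)) := by ring

/-- Number of `u ≤ x` divisible by a prime `P > y` having a small base of order `≤ T`. -/
theorem count4 {x y b T : ℕ} (hy : 1 ≤ y) :
    (((Icc 1 x).filter fun u => ∃ P, P.Prime ∧ y < P ∧ P ∣ u ∧
      ∃ q, q.Prime ∧ q ≤ b ∧ q ≠ P ∧ orderOf (q : ZMod P) ≤ T).card : ℝ) ≤
      x * ((b : ℝ) ^ 2 * (T : ℝ) ^ 2 / y) := by
  have h1 := Union.card_biUnion_real ((Icc 1 x).filter fun P => P.Prime ∧ y < P ∧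
      ∃ q, q.Prime ∧ q ≤ b ∧ q ≠ P ∧ orderOf (q : ZMod P) ≤ T)
    (fun P => (Icc 1 x).filter fun u => P ∣ u)
    ((Icc 1 x).filter fun u => ∃ P, P.Prime ∧ y < P ∧ P ∣ u ∧
      ∃ q, q.Prime ∧ q ≤ b ∧ q ≠ P ∧ orderOf (q : ZMod P) ≤ T) (by
      intro u hu
      rw [mem_filter, mem_Icc] at hu
      obtain ⟨⟨hu1, hux⟩, P, hP, hyP, hPu, hq⟩ := hu
      refine ⟨P, ?_, ?_⟩
      · rw [mem_filter, mem_Icc]
        exact ⟨⟨hP.one_le, (Nat.le_of_dvd (by omega) hPu).trans hux⟩, hP, hyP, hq⟩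
      · rw [mem_filter, mem_Icc]
        exact ⟨⟨hu1, hux⟩, hPu⟩)
  refine h1.trans ?_
  have hyR : (0 : ℝ) < y := by exact_mod_cast hy
  have hcard := ord_few (b := b) (T := T) ((Icc 1 x).filter fun P => P.Prime ∧ y < P ∧
      ∃ q, q.Prime ∧ q ≤ b ∧ q ≠ P ∧ orderOf (q : ZMod P) ≤ T) (by
      intro P hP
      rw [mem_filter] at hP
      obtain ⟨_, hP, _, q, hq, hqb, hqP, hord⟩ := hP
      exact ⟨hP, q, hqb, hq, hqP, hord⟩)
  calc ∑ P ∈ (Icc 1 x).filter (fun P => P.Prime ∧ y < P ∧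
          ∃ q, q.Prime ∧ q ≤ b ∧ q ≠ P ∧ orderOf (q : ZMod P) ≤ T),
        (((Icc 1 x).filter fun u => P ∣ u).card : ℝ)
      ≤ ∑ P ∈ (Icc 1 x).filter (fun P => P.Prime ∧ y < P ∧
          ∃ q, q.Prime ∧ q ≤ b ∧ q ≠ P ∧ orderOf (q : ZMod P) ≤ T), (x : ℝ) / y := by
        apply sum_le_sum
        intro P hP
        rw [mem_filter] at hP
        refine (Union.card_multiples x P).trans ?_
        apply div_le_div_of_nonneg_left (Nat.cast_nonneg x) hyR
        exact_mod_cast hP.2.2.1.le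
    _ = (((Icc 1 x).filter (fun P => P.Prime ∧ y < P ∧
          ∃ q, q.Prime ∧ q ≤ b ∧ q ≠ P ∧ orderOf (q : ZMod P) ≤ T)).card : ℝ) * ((x : ℝ) / y) := by
        rw [sum_const, nsmul_eq_mul]
    _ ≤ ((b : ℝ) ^ 2 * (T : ℝ) ^ 2) * ((x : ℝ) / y) := by
        apply mul_le_mul_of_nonneg_right _ (by positivity)
        exact_mod_cast hcard
    _ = x * ((b : ℝ) ^ 2 * (T : ℝ) ^ 2 / y) := by ring

/-- Markov for `omegaB`. -/
theorem count5 {x b w : ℕ} :
    (((Icc 1 x).filter fun u => w < omegaB b u).card : ℝ) ≤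
      x * ((∑ q ∈ (range (b + 1)).filter Nat.Prime, (1 : ℝ) / q) / (w + 1)) := by
  have h1 := Union.markov (Icc 1 x) (fun u => (omegaB b u : ℝ)) (fun u _ => Nat.cast_nonneg _)
    (c := (w : ℝ) + 1) (by positivity) (sum_omegaB (x := x) (b := b))
  have h2 : ((Icc 1 x).filter fun u => w < omegaB b u) =
      (Icc 1 x).filter fun u => (w : ℝ) + 1 ≤ (omegaB b u : ℝ) := by
    apply filter_congr
    intro u _
    rw [← Nat.cast_succ, Nat.cast_le, Nat.succ_le_iff]
  rw [h2]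
  refine h1.trans (le_of_eq ?_)
  ring

/-- Markov for `logS`. -/
theorem count6 {x b : ℕ} {s : ℝ} (hs : 0 < s) (hb : 1 ≤ b) :
    (((Icc 1 x).filter fun u => s < logS b u).card : ℝ) ≤
      x * ((2 * Real.log b + 2 * Real.log 4) / s) := by
  have h1 := Union.markov (Icc 1 x) (fun u => logS b u) (fun u _ => Union.logS_nonneg b u)
    (c := s) hs (sum_logS (x := x) hb)
  have h2 : ((Icc 1 x).filter fun u => s < logS b u).card ≤
      ((Icc 1 x).filter fun u => s ≤ logS b u).card := by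
    apply card_le_card
    intro u hu
    rw [mem_filter] at hu ⊢
    exact ⟨hu.1, hu.2.le⟩
  have h3 : (((Icc 1 x).filter fun u => s < logS b u).card : ℝ) ≤
      (((Icc 1 x).filter fun u => s ≤ logS b u).card : ℝ) := by exact_mod_cast h2
  refine (h3.trans h1).trans (le_of_eq ?_)
  ring

/-- Union bound. -/
theorem count_hasPerf {x y b T w : ℕ} {s : ℝ} (hx : 2 ≤ x) (hy : 2 ≤ y) (hb : 2 ≤ b)
    (hT0 : 0 < T) (hs : 0 < s) (hT : 2 ^ (w + 2) * s ≤ Real.log T)
    (hlog : Nat.log 2 (4 * x ^ 2) + 1 ≤ y) :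
    (Nat.card {u : ℕ // u ∈ Icc 1 x ∧ HasPerf (4 * u ^ 2)} : ℝ) ≤
      Real.sqrt x + x * (4 * (Real.log y + Real.log 4) / Real.log x) + x / y +
      x * ((1 + Real.log x) * (1 + 3 * Real.log x) ^ 3 / (b : ℝ) ^ (1 / 4 : ℝ)) +
      x * ((b : ℝ) ^ 2 * (T : ℝ) ^ 2 / y) +
      x * ((∑ q ∈ (range (b + 1)).filter Nat.Prime, (1 : ℝ) / q) / (w + 1)) +
      x * ((2 * Real.log b + 2 * Real.log 4) / s) := by
  have hcard : Nat.card {u : ℕ // u ∈ Icc 1 x ∧ HasPerf (4 * u ^ 2)} =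
      ((Icc 1 x).filter fun u => HasPerf (4 * u ^ 2)).card := by
    apply Nat.subtype_card
    intro u
    rw [mem_filter]
  rw [hcard]
  have hsub : ((Icc 1 x).filter fun u => HasPerf (4 * u ^ 2)) ⊆
      ((Icc 1 x).filter fun u => ∀ p, p.Prime → p ∣ u → p ≤ y) ∪
      ((Icc 1 x).filter fun u => ∃ P, P.Prime ∧ y < P ∧ P ^ 2 ∣ u) ∪
      ((Icc 1 x).filter fun u => ∃ P, P.Prime ∧ y < P ∧ P ∣ u ∧ ∃ q ∈ wiefA P b, q ∣ u) ∪
      ((Icc 1 x).filter fun u => ∃ P, P.Prime ∧ y < P ∧ P ∣ u ∧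
        ∃ q, q.Prime ∧ q ≤ b ∧ q ≠ P ∧ orderOf (q : ZMod P) ≤ T) ∪
      ((Icc 1 x).filter fun u => w < omegaB b u) ∪
      ((Icc 1 x).filter fun u => s < logS b u) := by
    intro u hu
    by_contra hcon
    rw [mem_filter] at hu
    obtain ⟨hux, hperf⟩ := hu
    simp only [mem_union, mem_filter, hux, true_and, not_or] at hcon
    obtain ⟨⟨⟨⟨⟨g1, g2⟩, g3⟩, g4⟩, g5⟩, g6⟩ := hcon
    rw [mem_Icc] at hux
    push Not at g1 g2 g3 g4 g5 g6
    exact not_hasPerf (x := x) (y := y) (b := b) (T := T) (u := u) (w := w) (s := s)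
      (by omega) hux.2 hy g1 g2 g3 g4 g5 g6 hT hT0 hlog hperf
  have h1 := count1 (x := x) (y := y) hx (by omega)
  have h2 := count2 (x := x) (y := y) (by omega)
  have h3 := count3 (x := x) (y := y) (b := b) hb
  have h4 := count4 (x := x) (y := y) (b := b) (T := T) (by omega)
  have h5 := count5 (x := x) (b := b) (w := w)
  have h6 := count6 (x := x) (b := b) (s := s) hs (by omega)
  have h7 := card_le_card hsub
  have h8 := h7.trans ((card_union_le _ _).trans (Nat.add_le_add_right ((card_union_le _ _).trans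
    (Nat.add_le_add_right ((card_union_le _ _).trans (Nat.add_le_add_right
    ((card_union_le _ _).trans (Nat.add_le_add_right (card_union_le _ _) _)) _)) _)) _))
  have h9 : (((Icc 1 x).filter fun u => HasPerf (4 * u ^ 2)).card : ℝ) ≤
      (((Icc 1 x).filter fun u => ∀ p, p.Prime → p ∣ u → p ≤ y).card : ℝ) +
      (((Icc 1 x).filter fun u => ∃ P, P.Prime ∧ y < P ∧ P ^ 2 ∣ u).card : ℝ) +
      (((Icc 1 x).filter fun u => ∃ P, P.Prime ∧ y < P ∧ P ∣ u ∧
        ∃ q ∈ wiefA P b, q ∣ u).card : ℝ) +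
      (((Icc 1 x).filter fun u => ∃ P, P.Prime ∧ y < P ∧ P ∣ u ∧
        ∃ q, q.Prime ∧ q ≤ b ∧ q ≠ P ∧ orderOf (q : ZMod P) ≤ T).card : ℝ) +
      (((Icc 1 x).filter fun u => w < omegaB b u).card : ℝ) +
      (((Icc 1 x).filter fun u => s < logS b u).card : ℝ) := by
    exact_mod_cast h8
  linarith

end P033
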